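import Crest.Agent.N218.P.Defs

-- ▼ part N218/P/Sm
section

/-! Row 218, block A1/A4 (helper47): the profile functions. -/

set_option autoImplicit false
set_option maxHeartbeats 400000
open Set Real
open scoped ContDiff

namespace Crest.Agent.N218.P

theorem st_one_sub (x : ℝ) : st (1 - x) = 1 - st x := by
  have := smoothTransition.pos_denom x
  simp only [st, smoothTransition, sub_sub_cancel]
  rw [add_comm (expNegInvGlue (1 - x))]
  field_simp
  ring

theorem st_nn (x : ℝ) : 0 ≤ st x := smoothTransition.nonneg x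
theorem st_le (x : ℝ) : st x ≤ 1 := smoothTransition.le_one x
theorem st_z {x : ℝ} (h : x ≤ 0) : st x = 0 := smoothTransition.zero_of_nonpos h
theorem st_o {x : ℝ} (h : 1 ≤ x) : st x = 1 := smoothTransition.one_of_one_le h

theorem S1_d (x : ℝ) : HasDerivAt S1 (st x) x :=
  (smoothTransition.continuous.integral_hasStrictDerivAt 0 x).hasDerivAt

theorem S1_deriv : deriv S1 = st := funext fun x => (S1_d x).deriv

theorem S1_diff : Differentiable ℝ S1 := fun x => (S1_d x).differentiableAt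

theorem S1_z (x : ℝ) (h : x ≤ 0) : S1 x = 0 := by
  rw [S1, intervalIntegral.integral_congr (g := fun _ => 0) fun t ht => st_z (by
    rw [uIcc_of_ge h] at ht; exact ht.2)]
  simp

theorem S1_mono : Monotone S1 :=
  monotone_of_deriv_nonneg S1_diff fun x => by rw [S1_deriv]; exact st_nn x

theorem S1_nn (x : ℝ) : 0 ≤ S1 x := by
  rcases le_total x 0 with h | h
  · exact (S1_z x h).ge
  · exact (S1_z 0 le_rfl).ge.trans (S1_mono h)

theorem S1_sym (x : ℝ) : S1 x - S1 (1 - x) = x - 1 / 2 := by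
  have d : ∀ x, HasDerivAt (fun x => S1 x - S1 (1 - x) - x) 0 x := fun x => by
    have := ((S1_d x).sub ((S1_d (1 - x)).comp x ((hasDerivAt_id x).const_sub 1))).sub
      (hasDerivAt_id x)
    rw [st_one_sub] at this
    exact this.congr_deriv (by ring)
  have := is_const_of_deriv_eq_zero (fun x => (d x).differentiableAt) (fun x => (d x).deriv) x (1 / 2)
  norm_num at this
  linarith

theorem S1_le (x : ℝ) (h : 0 ≤ x) : S1 x ≤ x * st x := by
  have := intervalIntegral.integral_mono_on h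
    (smoothTransition.continuous.intervalIntegrable (μ := MeasureTheory.volume) 0 x)
    (intervalIntegrable_const (c := st x)) fun t ht => smoothTransition.monotone ht.2
  simpa [S1] using this

theorem S1_le' (x : ℝ) (h : 0 ≤ x) : S1 x ≤ x :=
  (S1_le x h).trans (mul_le_of_le_one_right h (st_le x))

theorem S1_o (x : ℝ) (h : 1 ≤ x) : S1 x = x - 1 / 2 := by
  rw [← S1_sym, S1_z (1 - x) (by linarith), sub_zero]

theorem th_d (τ : ℝ) : HasDerivAt th (-(π / 2 * (st (3 - τ) - st (2 - τ)))) τ :=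
  ((((S1_d (3 - τ)).comp τ ((hasDerivAt_id τ).const_sub 3)).sub
    ((S1_d (2 - τ)).comp τ ((hasDerivAt_id τ).const_sub 2))).const_mul (π / 2)).congr_deriv (by ring)

theorem th_mem (τ : ℝ) : 0 ≤ th τ ∧ th τ ≤ π / 2 := by
  have a := S1_mono (show 2 - τ ≤ 3 - τ by linarith)
  have b := S1_mono (show 1 - (3 - τ) ≤ 1 - (2 - τ) by linarith)
  have c := S1_sym (3 - τ)
  have d := S1_sym (2 - τ)
  exact ⟨mul_nonneg (by positivity) (by linarith),
    mul_le_of_le_one_right (by positivity) (by linarith)⟩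

theorem sm : SM where
  sm := contDiff_infty_iff_deriv.2 ⟨S1_diff, S1_deriv ▸ smoothTransition.contDiff⟩
  d := S1_d
  z := S1_z
  o := S1_o
  nn := S1_nn
  ge x := by linarith [S1_sym x, S1_nn (1 - x)]
  le := S1_le
  mono := S1_mono
  conv := Monotone.convexOn_univ_of_deriv S1_diff (S1_deriv ▸ smoothTransition.monotone)
  Sm_le t := by
    have a := le_max_left t 0
    have b := le_max_right t 0
    rw [Sm]
    rcases le_total (500 * t + 1 / 2) 0 with h | h
    · rw [S1_z _ h]; linarith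
    · linarith [S1_le' _ h]
  Sm_ge t := by
    rw [Sm]
    exact max_le (by linarith [S1_sym (500 * t + 1 / 2), S1_nn (1 - (500 * t + 1 / 2))])
      (by linarith [S1_nn (500 * t + 1 / 2)])
  th_d := th_d
  th_mem := th_mem
  th_lo τ h := by rw [th, S1_o _ (by linarith), S1_o _ (by linarith)]; ring
  th_hi τ h := by rw [th, S1_z _ (by linarith), S1_z _ (by linarith)]; ring
  th_d0 τ h := by
    have : -(π / 2 * (st (3 - τ) - st (2 - τ))) = 0 := by
      rcases h with h | h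
      · exact IsLocalMin.hasDerivAt_eq_zero (.of_forall fun x => h ▸ (th_mem x).1) (th_d τ)
      · exact IsLocalMax.hasDerivAt_eq_zero (.of_forall fun x => h ▸ (th_mem x).2) (th_d τ)
    exact (mul_eq_zero.1 (neg_eq_zero.1 this)).resolve_left (by positivity)
  th_sm τ h := by
    rw [th] at h ⊢
    refine mul_le_mul_of_nonneg_left ?_ (by positivity)
    have a : S1 (3 - τ) - S1 (2 - τ) < 1 / 2 :=
      lt_of_mul_lt_mul_left (h.trans_eq (by ring)) (by positivity : 0 ≤ π / 2)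
    rcases le_total (2 - τ) 0 with k | k
    · rw [S1_z _ k, st_z k]
      rcases le_total (3 - τ) 0 with l | l
      · rw [S1_z _ l]; linarith [st_nn (3 - τ)]
      · nlinarith [S1_le _ l, st_nn (3 - τ)]
    · rw [S1_o (3 - τ) (by linarith)] at a
      linarith [S1_le' _ k]

end Crest.Agent.N218.P
end

-- ▼ part N218/P/Kit

/-! Row 218, block A1/A4 (helper47): kit for the coordinates, the circle actions and the profiles. -/

set_option autoImplicit false
set_option maxHeartbeats 400000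
open Set Real
open scoped ContDiff RealInnerProductSpace ComplexConjugate

namespace Crest.Agent.N218.P

noncomputable section

/-! ### profiles -/

theorem st_sm : ContDiff ℝ ∞ st := smoothTransition.contDiff
theorem S1_sm : ContDiff ℝ ∞ S1 := sm.sm
theorem th_smooth : ContDiff ℝ ∞ th := by
  unfold th
  exact contDiff_const.mul ((S1_sm.comp (by fun_prop)).sub (S1_sm.comp (by fun_prop)))
theorem Ee_sm : ContDiff ℝ ∞ Ee := by
  unfold Ee
  exact contDiff_const.mul (S1_sm.comp (by fun_prop))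

theorem Ee_d (x : ℝ) : HasDerivAt Ee (1000 * st (10 * x)) x :=
  (((S1_d _).comp x ((hasDerivAt_id x).const_mul 10)).const_mul 100).congr_deriv (by simp; ring)
theorem Sm_z {t : ℝ} (h : t ≤ -(1 / 1000)) : Sm t = 0 := by rw [Sm, S1_z _ (by linarith), zero_div]
theorem Sm_neg (t : ℝ) : Sm (-t) = Sm t - t := by
  have := S1_sym (500 * t + 1 / 2)
  rw [Sm, Sm, show 500 * -t + 1 / 2 = 1 - (500 * t + 1 / 2) by ring]
  linarith
theorem Ee_nn (x : ℝ) : 0 ≤ Ee x := mul_nonneg (by norm_num) (S1_nn _)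
theorem Ee_z {x : ℝ} (h : x ≤ 0) : Ee x = 0 := by rw [Ee, S1_z _ (by linarith), mul_zero]
theorem Ee_ge (x : ℝ) : 1000 * x - 50 ≤ Ee x := by rw [Ee]; linarith [sm.ge (10 * x)]
theorem Ee_mono : Monotone Ee := fun _ _ h =>
  mul_le_mul_of_nonneg_left (S1_mono (by linarith)) (by norm_num)
theorem Ee_le {x : ℝ} (h : 0 ≤ x) : Ee x ≤ x * (1000 * st (10 * x)) := by
  rw [Ee]; linarith [S1_le (10 * x) (by linarith)]

theorem smin_comm (a b : ℝ) : smin a b = smin b a := by
  rw [smin, smin, ← neg_sub a b, Sm_neg]; ring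
theorem smin_left {a b : ℝ} (h : a + 1 / 1000 ≤ b) : smin a b = a := by
  rw [smin, Sm_z (by linarith), sub_zero]
theorem smin_right {a b : ℝ} (h : b + 1 / 1000 ≤ a) : smin a b = b :=
  smin_comm a b ▸ smin_left h
theorem min_le_smin (a b : ℝ) : min a b - 1 / 1000 ≤ smin a b := by
  have := sm.Sm_le (a - b)
  rw [smin]
  rcases le_total a b with h | h
  · rw [min_eq_left h]; rw [max_eq_right (sub_nonpos.2 h)] at this; linarith
  · rw [min_eq_right h]; rw [max_eq_left (sub_nonneg.2 h)] at this; linarith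

section
variable {X : Type*} [NormedAddCommGroup X] [NormedSpace ℝ X] {f g : X → ℝ}
end

/-! ### coordinates -/

@[simp] theorem pv0 (η : Y) : pv η 0 = η 0 := rfl
@[simp] theorem pv1 (η : Y) : pv η 1 = η 1 := rfl
@[simp] theorem pw0 (η : Y) : pw η 0 = η 2 := rfl
@[simp] theorem pw1 (η : Y) : pw η 1 = η 3 := rfl

theorem V_ext {v w : V} (h0 : v 0 = w 0) (h1 : v 1 = w 1) : v = w := by
  ext i; fin_cases i; exacts [h0, h1]
theorem Y_ext {v w : Y} (h0 : v 0 = w 0) (h1 : v 1 = w 1) (h2 : v 2 = w 2) (h3 : v 3 = w 3)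
    (h4 : v 4 = w 4) : v = w := by
  ext i; fin_cases i; exacts [h0, h1, h2, h3, h4]

theorem V_sq (v : V) : ‖v‖ ^ 2 = ‖v 0‖ ^ 2 + ‖v 1‖ ^ 2 := by
  rw [EuclideanSpace.norm_sq_eq, Fin.sum_univ_two]
theorem Y_sq (η : Y) : ‖η‖ ^ 2 = ‖η 0‖ ^ 2 + ‖η 1‖ ^ 2 + ‖η 2‖ ^ 2 + ‖η 3‖ ^ 2 + ‖η 4‖ ^ 2 := by
  rw [EuclideanSpace.norm_sq_eq, Fin.sum_univ_five]
theorem norm_sq_Y (η : Y) : ‖η‖ ^ 2 = ‖pv η‖ ^ 2 + ‖pw η‖ ^ 2 + u2 η ^ 2 + u1 η ^ 2 := by
  rw [Y_sq, V_sq, V_sq, Complex.sq_norm (η 4), Complex.normSq_apply, u1, u2]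
  simp only [pv0, pv1, pw0, pw1]
  ring

/-- the inverse of `co` -/
def oc (z : V × V × ℝ × ℝ) : Y := !₂[z.1 0, z.1 1, z.2.1 0, z.2.1 1, ⟨z.2.2.1, z.2.2.2⟩]

theorem co_oc (z : V × V × ℝ × ℝ) : co (oc z) = z :=
  Prod.ext (V_ext rfl rfl) (Prod.ext (V_ext rfl rfl) rfl)
theorem oc_co (η : Y) : oc (co η) = η := Y_ext rfl rfl rfl rfl rfl

/-- `co` as a continuous linear equivalence -/
def coL : Y ≃L[ℝ] V × V × ℝ × ℝ := LinearEquiv.toContinuousLinearEquiv
  { toFun := co
    invFun := oc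
    map_add' := fun _ _ => Prod.ext (V_ext rfl rfl) (Prod.ext (V_ext rfl rfl) rfl)
    map_smul' := fun c η => Prod.ext (V_ext rfl rfl) (Prod.ext (V_ext rfl rfl)
      (Prod.ext (by simp [co, u2]) (by simp [co, u1])))
    left_inv := oc_co
    right_inv := co_oc }
@[simp] theorem coL_apply (η : Y) : coL η = co η := rfl
@[simp] theorem coL_symm (z : V × V × ℝ × ℝ) : coL.symm z = oc z := rfl

def pvL : Y →L[ℝ] V := (ContinuousLinearMap.fst ℝ _ _).comp coL.toContinuousLinearMap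
def pwL : Y →L[ℝ] V :=
  (ContinuousLinearMap.fst ℝ _ _).comp
    ((ContinuousLinearMap.snd ℝ _ _).comp coL.toContinuousLinearMap)
def u2L : Y →L[ℝ] ℝ := Complex.reCLM.comp ((EuclideanSpace.proj (4 : Fin 5)).restrictScalars ℝ)
def u1L : Y →L[ℝ] ℝ := Complex.imCLM.comp ((EuclideanSpace.proj (4 : Fin 5)).restrictScalars ℝ)
@[simp] theorem pvL_apply (η : Y) : pvL η = pv η := rfl
@[simp] theorem pwL_apply (η : Y) : pwL η = pw η := rfl
@[simp] theorem u2L_apply (η : Y) : u2L η = u2 η := rfl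
@[simp] theorem u1L_apply (η : Y) : u1L η = u1 η := rfl

theorem co_sm : ContDiff ℝ ∞ co := coL.contDiff
theorem pv_sm : ContDiff ℝ ∞ pv := pvL.contDiff
theorem pw_sm : ContDiff ℝ ∞ pw := pwL.contDiff
theorem u1_sm : ContDiff ℝ ∞ u1 := u1L.contDiff
theorem u1_d (η : Y) : HasFDerivAt u1 u1L η := u1L.hasFDerivAt

theorem u1_add (a b : Y) : u1 (a + b) = u1 a + u1 b := u1L.map_add a b
theorem u1_sub (a b : Y) : u1 (a - b) = u1 a - u1 b := u1L.map_sub a b
theorem u1_smul (c : ℝ) (a : Y) : u1 (c • a) = c * u1 a := u1L.map_smul c a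
@[simp] theorem u1_ev : u1 ev = 1 := rfl
@[simp] theorem u2_ev : u2 ev = 0 := rfl
@[simp] theorem pv_ev : pv ev = 0 := V_ext rfl rfl
@[simp] theorem pw_ev : pw ev = 0 := V_ext rfl rfl
theorem norm_ev : ‖ev‖ = 1 := by
  have := norm_sq_Y ev
  simp only [pv_ev, pw_ev, u1_ev, u2_ev, norm_zero] at this
  nlinarith [norm_nonneg ev]
theorem inner_ev (η : Y) : ⟪ev, η⟫ = u1 η := by
  simp [PiLp.inner_apply, Fin.sum_univ_five, ev, u1]
theorem abs_u1_le (η : Y) : |u1 η| ≤ ‖η‖ :=
  abs_le_of_sq_le_sq' (by nlinarith [norm_sq_Y η]) (norm_nonneg _) |> abs_le.2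
theorem abs_u2_le (η : Y) : |u2 η| ≤ ‖η‖ :=
  abs_le_of_sq_le_sq' (by nlinarith [norm_sq_Y η]) (norm_nonneg _) |> abs_le.2

/-! ### the circle actions -/

theorem pv_act (c : ℂ) (η : Y) : pv (act c η) = aV c (pv η) := V_ext rfl rfl
theorem pw_act (c : ℂ) (η : Y) : pw (act c η) = aW c (pw η) := V_ext rfl rfl
@[simp] theorem u1_act (c : ℂ) (η : Y) : u1 (act c η) = u1 η := rfl
@[simp] theorem u2_act (c : ℂ) (η : Y) : u2 (act c η) = u2 η := rfl
theorem act_ev (c : ℂ) : act c ev = ev :=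
  Y_ext (by simp [act, ev]) (by simp [act, ev]) (by simp [act, ev]) (by simp [act, ev]) rfl
theorem act_mul (c d : ℂ) (η : Y) : act (c * d) η = act c (act d η) :=
  Y_ext (by simp [act]; ring) (by simp [act]; ring) (by simp [act]; ring) (by simp [act]; ring) rfl
theorem aV_mul (c d : ℂ) (v : V) : aV (c * d) v = aV c (aV d v) :=
  V_ext (by simp [aV]; ring) (by simp [aV]; ring)
theorem aW_mul (c d : ℂ) (v : V) : aW (c * d) v = aW c (aW d v) :=
  V_ext (by simp [aW]; ring) (by simp [aW]; ring)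
theorem act_one (η : Y) : act 1 η = η :=
  Y_ext (by simp [act]) (by simp [act]) (by simp [act]) (by simp [act]) rfl
theorem aV_one (v : V) : aV 1 v = v := V_ext (by simp [aV]) (by simp [aV])
theorem aW_one (v : V) : aW 1 v = v := V_ext (by simp [aW]) (by simp [aW])

variable {c : ℂ}

theorem mul_cj (h : ‖c‖ = 1) : c * conj c = 1 := by
  rw [Complex.mul_conj, Complex.normSq_eq_norm_sq, h]; simp
theorem cj_mul (h : ‖c‖ = 1) : conj c * c = 1 := (mul_comm _ _).trans (mul_cj h)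

theorem norm_aV (h : ‖c‖ = 1) (v : V) : ‖aV c v‖ = ‖v‖ :=
  (sq_eq_sq₀ (norm_nonneg _) (norm_nonneg _)).1 (by simp [V_sq, aV, h])
theorem norm_aW (h : ‖c‖ = 1) (v : V) : ‖aW c v‖ = ‖v‖ :=
  (sq_eq_sq₀ (norm_nonneg _) (norm_nonneg _)).1 (by simp [V_sq, aW, h])
theorem norm_act (h : ‖c‖ = 1) (η : Y) : ‖act c η‖ = ‖η‖ :=
  (sq_eq_sq₀ (norm_nonneg _) (norm_nonneg _)).1 (by simp [Y_sq, act, h])

/-- the actions as real-linear maps (any `c`) -/
def aVl (c : ℂ) : V →L[ℝ] V := LinearMap.toContinuousLinearMap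
  { toFun := aV c
    map_add' := fun _ _ => V_ext (by simp [aV, mul_add]) (by simp [aV, mul_add])
    map_smul' := fun _ _ => V_ext (by simp [aV]; ring) (by simp [aV]; ring) }
def aWl (c : ℂ) : V →L[ℝ] V := LinearMap.toContinuousLinearMap
  { toFun := aW c
    map_add' := fun _ _ => V_ext (by simp [aW, mul_add]) (by simp [aW, mul_add])
    map_smul' := fun _ _ => V_ext (by simp [aW]; ring) (by simp [aW]; ring) }
def actl (c : ℂ) : Y →L[ℝ] Y := LinearMap.toContinuousLinearMap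
  { toFun := act c
    map_add' := fun _ _ => Y_ext (by simp [act, mul_add]) (by simp [act, mul_add])
      (by simp [act, mul_add]) (by simp [act, mul_add]) rfl
    map_smul' := fun _ _ => Y_ext (by simp [act]; ring) (by simp [act]; ring) (by simp [act]; ring)
      (by simp [act]; ring) rfl }
@[simp] theorem aVl_apply (c : ℂ) (v : V) : aVl c v = aV c v := rfl
@[simp] theorem aWl_apply (c : ℂ) (v : V) : aWl c v = aW c v := rfl
@[simp] theorem actl_apply (c : ℂ) (η : Y) : actl c η = act c η := rfl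

theorem act_add (c : ℂ) (a b : Y) : act c (a + b) = act c a + act c b := (actl c).map_add a b
theorem act_sub (c : ℂ) (a b : Y) : act c (a - b) = act c a - act c b := (actl c).map_sub a b
theorem act_smul (c : ℂ) (t : ℝ) (a : Y) : act c (t • a) = t • act c a := (actl c).map_smul t a

/-- the actions as linear isometries -/
def aVL (h : ‖c‖ = 1) : V ≃ₗᵢ[ℝ] V where
  __ := (aVl c : V →ₗ[ℝ] V)
  invFun := aV (conj c)
  left_inv v := (aV_mul _ _ v).symm.trans (by rw [cj_mul h, aV_one])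
  right_inv v := (aV_mul _ _ v).symm.trans (by rw [mul_cj h, aV_one])
  norm_map' := norm_aV h
def aWL (h : ‖c‖ = 1) : V ≃ₗᵢ[ℝ] V where
  __ := (aWl c : V →ₗ[ℝ] V)
  invFun := aW (conj c)
  left_inv v := (aW_mul _ _ v).symm.trans (by rw [cj_mul h, aW_one])
  right_inv v := (aW_mul _ _ v).symm.trans (by rw [mul_cj h, aW_one])
  norm_map' := norm_aW h
def actL (h : ‖c‖ = 1) : Y ≃ₗᵢ[ℝ] Y where
  __ := (actl c : Y →ₗ[ℝ] Y)
  invFun := act (conj c)
  left_inv v := (act_mul _ _ v).symm.trans (by rw [cj_mul h, act_one])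
  right_inv v := (act_mul _ _ v).symm.trans (by rw [mul_cj h, act_one])
  norm_map' := norm_act h
@[simp] theorem aVL_apply (h : ‖c‖ = 1) (v : V) : aVL h v = aV c v := rfl
@[simp] theorem aWL_apply (h : ‖c‖ = 1) (v : V) : aWL h v = aW c v := rfl
@[simp] theorem actL_apply (h : ‖c‖ = 1) (η : Y) : actL h η = act c η := rfl
@[simp] theorem actL_symm (h : ‖c‖ = 1) (η : Y) : (actL h).symm η = act (conj c) η := rfl

theorem inner_aW (h : ‖c‖ = 1) (v w : V) : ⟪aW c v, aW c w⟫ = ⟪v, w⟫ := (aWL h).inner_map_map v w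
theorem inner_act (h : ‖c‖ = 1) (v w : Y) : ⟪act c v, act c w⟫ = ⟪v, w⟫ :=
  (actL h).inner_map_map v w
theorem piH_act (p : ℝ → ℝ) (c : ℂ) (η : Y) : piH p (act c η) = act c (piH p η) := by
  rw [piH, piH, act_sub, act_smul, act_ev, u1_act]
theorem u1_piH (p : ℝ → ℝ) (η : Y) : u1 (piH p η) = p (u1 η) := by
  rw [piH, u1_sub, u1_smul, u1_ev]; ring

/-- the actions are jointly smooth -/
theorem act_sm : ContDiff ℝ ∞ fun x : ℂ × Y => act x.1 x.2 := by
  refine (contDiff_piLp 2).2 fun i => ?_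
  fin_cases i <;> simp [act] <;> fun_prop

/-- invariance of the tube function -/
theorem G_act (h : ‖c‖ = 1) {M M' : V → V} (e : ∀ v, M' (aV c v) = aW c (M v)) (a b : ℝ) (η : Y) :
    G M' a b (co (act c η)) = G M a b (co η) := by
  simp only [G, tau, co, pv_act, pw_act, u1_act, u2_act, e, norm_aV h, norm_aW h, inner_aW h]

theorem tau_sm : ContDiff ℝ ∞ tau := by
  unfold tau
  exact (contDiff_fst.norm_sq ℝ).add (contDiff_snd.fst.norm_sq ℝ)

/-- smoothness of the tube function along smooth data -/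
theorem G_sm {X : Type*} [NormedAddCommGroup X] [NormedSpace ℝ X] {M : X → V → V} {a b : X → ℝ}
    {z : X → V × V × ℝ × ℝ} (hM : ContDiff ℝ ∞ fun x => M x (z x).1) (ha : ContDiff ℝ ∞ a)
    (hb : ContDiff ℝ ∞ b) (hz : ContDiff ℝ ∞ z) :
    ContDiff ℝ ∞ fun x => G (M x) (a x) (b x) (z x) := by
  have t := tau_sm.comp hz
  have s := th_smooth.comp t
  unfold G
  exact ((((((s.cos.pow 2).mul (hz.fst.norm_sq ℝ)).add ((s.sin.pow 2).mul
    (hz.snd.fst.norm_sq ℝ))).sub (((contDiff_const.mul s.sin).mul s.cos).mul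
    (hM.inner ℝ hz.snd.fst))).add (hz.snd.snd.fst.pow 2)).add ((hz.snd.snd.snd.sub (hb.mul
    ((contDiff_const.mul t).sub contDiff_const))).pow 2) |>.sub (t.div_const _)
    |>.add (Ee_sm.comp (t.sub ha))).sub contDiff_const

end

end Crest.Agent.N218.P
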