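import Mathlib
import Crest.Agent.N218.P.Defs

-- ▼ part N218/Pt/Pt
section

/-!
# Row 218, block A (helper83): Petrie's map and an explicit non-vanishing path to the identity
-/

set_option autoImplicit false
set_option maxHeartbeats 400000

open scoped ContDiff ComplexConjugate

namespace Crest.Agent.N218.Pt

/-- Petrie's map `L² + L³ → L + L⁶` -/
def P (z : ℂ × ℂ) : ℂ × ℂ := (conj z.1 * z.2, z.1 ^ 3 + z.2 ^ 2)

/-- the unique preimage of `(s⁵, 0)` -/
theorem P_fib (s : ℝ) (u v : ℂ) (h1 : conj u * v = (s : ℂ) ^ 5) (h2 : u ^ 3 + v ^ 2 = 0) :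
    u = -(s : ℂ) ^ 2 ∧ v = -(s : ℂ) ^ 3 := by
  have hn : (Complex.normSq u : ℂ) = conj u * u := by
    rw [Complex.normSq_eq_conj_mul_self]
  have h3 : (Complex.normSq u : ℂ) ^ 2 * u = -(s : ℂ) ^ 10 := by
    rw [hn]
    have : (conj u * v) ^ 2 = (s : ℂ) ^ 10 := by rw [h1]; ring
    linear_combination (conj u) ^ 2 * h2 - this
  have h4 : ‖u‖ ^ 5 = (s ^ 2) ^ 5 := by
    have := congrArg norm h3
    rw [norm_mul, norm_pow, norm_neg, norm_pow, Complex.norm_real, Complex.norm_real,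
      Complex.normSq_eq_norm_sq, Real.norm_eq_abs, Real.norm_eq_abs, abs_of_nonneg (sq_nonneg _)]
      at this
    have h5 : |s| ^ 10 = (s ^ 2) ^ 5 := by
      rw [show (10 : ℕ) = 2 * 5 from rfl, pow_mul, sq_abs]
    rw [← h5, ← this]; ring
  have h5 : ‖u‖ = s ^ 2 :=
    (pow_left_inj₀ (norm_nonneg _) (sq_nonneg _) (by norm_num)).1 h4
  by_cases hs : s = 0
  · subst hs
    have hu : u = 0 := by simpa using h5
    subst hu
    have hv : v = 0 := by simpa using h2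
    simp [hv]
  · have hs' : (s : ℂ) ≠ 0 := by exact_mod_cast hs
    have h6 : (Complex.normSq u : ℂ) = (s : ℂ) ^ 4 := by
      rw [Complex.normSq_eq_norm_sq, h5]; push_cast; ring
    rw [h6] at h3
    have hu : u = -(s : ℂ) ^ 2 := by
      apply mul_left_cancel₀ (pow_ne_zero 8 hs')
      linear_combination h3
    refine ⟨hu, ?_⟩
    rw [hu] at h1
    simp only [map_neg, map_pow, Complex.conj_ofReal] at h1
    apply mul_left_cancel₀ (pow_ne_zero 2 hs')
    linear_combination -h1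


/-- difference quotient `(P (s·p + (1-s) z) - P (s·p)) / (1-s)`, `s·p = (-s², -s³)` -/
def H1 (s : ℝ) (z : ℂ × ℂ) : ℂ × ℂ :=
  (-(s : ℂ) ^ 2 * z.2 - (s : ℂ) ^ 3 * conj z.1 + (1 - s) * (conj z.1 * z.2),
    3 * (s : ℂ) ^ 4 * z.1 - 3 * (s : ℂ) ^ 2 * (1 - s) * z.1 ^ 2 + (1 - s) ^ 2 * z.1 ^ 3
      - 2 * (s : ℂ) ^ 3 * z.2 + (1 - s) * z.2 ^ 2)

theorem H1_zero (z : ℂ × ℂ) : H1 0 z = P z := by simp [H1, P]

theorem H1_one (z : ℂ × ℂ) : H1 1 z = (-z.2 - conj z.1, 3 * z.1 - 2 * z.2) := by simp [H1]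

/-- the segment from `DP(p)` to the identity is non-singular -/
theorem seg_ne (b : ℝ) {z : ℂ × ℂ} (hz : z ≠ 0) : H1 1 z + b • (z - H1 1 z) ≠ 0 := by
  intro h
  rw [H1_one] at h
  have h1 := congrArg Prod.fst h
  have h2 := congrArg Prod.snd h
  simp only [Prod.fst_add, Prod.snd_add, Prod.smul_fst, Prod.smul_snd, Prod.fst_sub, Prod.snd_sub,
    Prod.fst_zero, Prod.snd_zero] at h1 h2
  have a1 := congrArg Complex.re h1
  have a2 := congrArg Complex.im h1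
  have a3 := congrArg Complex.re h2
  have a4 := congrArg Complex.im h2
  simp at a1 a2 a3 a4
  set x1 := z.1.re
  set y1 := z.1.im
  set x2 := z.2.re
  set y2 := z.2.im
  have d1 : 0 < 1 - 5 * (1 - b) + 9 * (1 - b) ^ 2 := by nlinarith [sq_nonneg (18 * (1 - b) - 5)]
  have d2 : 0 < 1 - 3 * (1 - b) + 3 * (1 - b) ^ 2 := by nlinarith [sq_nonneg (2 * (1 - b) - 1)]
  have e1 : x1 = 0 := by
    apply mul_left_cancel₀ d1.ne'
    linear_combination (1 - 3 * (1 - b)) * a1 + (1 - b) * a3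
  have e2 : x2 = 0 := by
    apply mul_left_cancel₀ d1.ne'
    linear_combination (-3 * (1 - b)) * a1 + (1 - 2 * (1 - b)) * a3
  have e3 : y1 = 0 := by
    apply mul_left_cancel₀ d2.ne'
    linear_combination (1 - 3 * (1 - b)) * a2 + (1 - b) * a4
  have e4 : y2 = 0 := by
    apply mul_left_cancel₀ d2.ne'
    linear_combination (-3 * (1 - b)) * a2 + a4
  exact hz (Prod.ext (Complex.ext e1 e3) (Complex.ext e2 e4))

theorem H1_ne (s : ℝ) {z : ℂ × ℂ} (hz : z ≠ 0) : H1 s z ≠ 0 := by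
  by_cases hs : s = 1
  · subst hs
    simpa using seg_ne 0 hz
  intro h
  have h1 := congrArg Prod.fst h
  have h2 := congrArg Prod.snd h
  simp only [H1, Prod.fst_zero, Prod.snd_zero] at h1 h2
  have hl : (1 - (s : ℂ)) ≠ 0 := by
    rw [sub_ne_zero]; exact_mod_cast Ne.symm hs
  obtain ⟨a, b⟩ := P_fib s (-(s : ℂ) ^ 2 + (1 - s) * z.1) (-(s : ℂ) ^ 3 + (1 - s) * z.2)
    (by
      simp only [map_add, map_neg, map_pow, map_mul, map_sub, map_one, Complex.conj_ofReal]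
      linear_combination (1 - (s : ℂ)) * h1)
    (by linear_combination (1 - (s : ℂ)) * h2)
  apply hz
  refine Prod.ext (mul_left_cancel₀ hl ?_) (mul_left_cancel₀ hl ?_)
  · simp only [Prod.fst_zero]; linear_combination a
  · simp only [Prod.snd_zero]; linear_combination b

theorem H1_smooth : ContDiff ℝ ∞ fun p : ℝ × (ℂ × ℂ) => H1 p.1 p.2 := by
  have c : ContDiff ℝ ∞ fun p : ℝ × (ℂ × ℂ) => conj p.2.1 :=
    Complex.conjCLE.contDiff.comp (by fun_prop)
  have r : ContDiff ℝ ∞ fun p : ℝ × (ℂ × ℂ) => (p.1 : ℂ) :=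
    Complex.ofRealCLM.contDiff.comp (by fun_prop)
  have a : ContDiff ℝ ∞ fun p : ℝ × (ℂ × ℂ) => p.2.1 := by fun_prop
  have b : ContDiff ℝ ∞ fun p : ℝ × (ℂ × ℂ) => p.2.2 := by fun_prop
  unfold H1
  refine ContDiff.prodMk ?_ ?_
  · exact (((r.pow 2).neg.mul b).sub ((r.pow 3).mul c)).add ((contDiff_const.sub r).mul (c.mul b))
  · exact (((((contDiff_const.mul (r.pow 4)).mul a).sub
      (((contDiff_const.mul (r.pow 2)).mul (contDiff_const.sub r)).mul (a.pow 2))).add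
      (((contDiff_const.sub r).pow 2).mul (a.pow 3))).sub
      ((contDiff_const.mul (r.pow 3)).mul b)).add ((contDiff_const.sub r).mul (b.pow 2))

/-- The path: `H t = P` for `t ≤ 0`, `H t = id` for `1 ≤ t`, never zero off `0`. -/
noncomputable def H (t : ℝ) (z : ℂ × ℂ) : ℂ × ℂ :=
  H1 (Real.smoothTransition (2 * t)) z + Real.smoothTransition (2 * t - 1) • (z - H1 1 z)

theorem H_of_le {t : ℝ} (ht : t ≤ 0) (z : ℂ × ℂ) : H t z = P z := by
  rw [H, Real.smoothTransition.zero_of_nonpos (by linarith),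
    Real.smoothTransition.zero_of_nonpos (by linarith), H1_zero]
  simp

theorem H_of_ge {t : ℝ} (ht : 1 ≤ t) (z : ℂ × ℂ) : H t z = z := by
  rw [H, Real.smoothTransition.one_of_one_le (by linarith),
    Real.smoothTransition.one_of_one_le (by linarith)]
  simp

theorem H_ne (t : ℝ) {z : ℂ × ℂ} (hz : z ≠ 0) : H t z ≠ 0 := by
  rcases le_total t (1 / 2) with ht | ht
  · rw [H, Real.smoothTransition.zero_of_nonpos (x := 2 * t - 1) (by linarith)]
    simpa using H1_ne _ hz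
  · rw [H, Real.smoothTransition.one_of_one_le (x := 2 * t) (by linarith)]
    exact seg_ne _ hz


theorem H_smooth : ContDiff ℝ ∞ fun p : ℝ × (ℂ × ℂ) => H p.1 p.2 := by
  have s1 : ContDiff ℝ ∞ fun p : ℝ × (ℂ × ℂ) => Real.smoothTransition (2 * p.1) :=
    Real.smoothTransition.contDiff.comp (by fun_prop)
  have s2 : ContDiff ℝ ∞ fun p : ℝ × (ℂ × ℂ) => Real.smoothTransition (2 * p.1 - 1) :=
    Real.smoothTransition.contDiff.comp (by fun_prop)
  have s3 : ContDiff ℝ ∞ fun p : ℝ × (ℂ × ℂ) => H1 (Real.smoothTransition (2 * p.1)) p.2 :=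
    H1_smooth.comp (f := fun p : ℝ × (ℂ × ℂ) => (Real.smoothTransition (2 * p.1), p.2))
      (s1.prodMk contDiff_snd)
  have s4 : ContDiff ℝ ∞ fun p : ℝ × (ℂ × ℂ) => H1 1 p.2 :=
    H1_smooth.comp (f := fun p : ℝ × (ℂ × ℂ) => ((1 : ℝ), p.2)) (contDiff_const.prodMk contDiff_snd)
  exact s3.add (s2.smul (contDiff_snd.sub s4))

theorem P_smooth : ContDiff ℝ ∞ P := by
  have := H1_smooth.comp ((contDiff_const (c := (0 : ℝ))).prodMk (contDiff_id (E := ℂ × ℂ)))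
  simpa [Function.comp_def, H1_zero] using this

/-- equivariance: weights `(2,3) → (1,6)` -/
theorem P_equiv (c : ℂ) (hc : ‖c‖ = 1) (z : ℂ × ℂ) :
    P (c ^ 2 * z.1, c ^ 3 * z.2) = (c * (P z).1, c ^ 6 * (P z).2) := by
  have h : conj c * c = 1 := by
    rw [← Complex.normSq_eq_conj_mul_self, Complex.normSq_eq_norm_sq, hc]; simp
  refine Prod.ext ?_ ?_
  · simp only [P, map_mul, map_pow]
    linear_combination (c * conj z.1 * z.2 * (conj c * c + 1)) * h
  · simp only [P]; ring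

end Crest.Agent.N218.Pt
end

-- ▼ part N218/P/Mz

/-!
# Row 218 (helper88): the family of attaching maps
-/

set_option autoImplicit false
open Set Real Filter Topology
open scoped ContDiff ComplexConjugate

namespace Crest.Agent.N218.P

noncomputable section

namespace Mk

/-- the phase -/
def ph (ζ : ℂ) : ℂ := if ζ = 0 then 1 else ζ / ‖ζ‖

theorem ph_ne {ζ : ℂ} (h : ζ ≠ 0) : ph ζ = ζ / ‖ζ‖ := if_neg h

theorem ph_norm (ζ : ℂ) : ‖ph ζ‖ = 1 := by
  unfold ph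
  split_ifs with h
  · simp
  · simp [h]

theorem cc {c : ℂ} (h : ‖c‖ = 1) : conj c * c = 1 := by
  rw [← Complex.normSq_eq_conj_mul_self, Complex.normSq_eq_norm_sq, h]; simp

theorem ph_mul {c ζ : ℂ} (hc : ‖c‖ = 1) (h : ζ ≠ 0) : ph (c * ζ) = c * ph ζ := by
  have : c ≠ 0 := by rintro rfl; simp at hc
  rw [ph_ne h, ph_ne (mul_ne_zero this h), norm_mul, hc, one_mul, mul_div_assoc]

theorem ext2 {v w : V} (a : v 0 = w 0) (b : v 1 = w 1) : v = w := by
  ext i; fin_cases i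
  · exact a
  · exact b

theorem nrm2 {v w : V} (a : ‖v 0‖ = ‖w 0‖) (b : ‖v 1‖ = ‖w 1‖) : ‖v‖ = ‖w‖ := by
  simp only [EuclideanSpace.norm_eq, Fin.sum_univ_two, a, b]

theorem aV_norm {c : ℂ} (h : ‖c‖ = 1) (v : V) : ‖aV c v‖ = ‖v‖ :=
  nrm2 (by simp [aV, h]) (by simp [aV, h])
theorem aW_norm {c : ℂ} (h : ‖c‖ = 1) (v : V) : ‖aW c v‖ = ‖v‖ :=
  nrm2 (by simp [aW, h]) (by simp [aW, h])
theorem aV_smul (c : ℂ) (t : ℝ) (v : V) : aV c (t • v) = t • aV c v :=
  ext2 (by simp [aV]; ring) (by simp [aV]; ring)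
theorem aW_smul (c : ℂ) (t : ℝ) (v : V) : aW c (t • v) = t • aW c v :=
  ext2 (by simp [aW]; ring) (by simp [aW]; ring)
theorem aW_add (c : ℂ) (v w : V) : aW c (v + w) = aW c v + aW c w :=
  ext2 (by simp [aW]; ring) (by simp [aW]; ring)

/-- the linear map at infinity -/
def J (ζ : ℂ) (v : V) : V := !₂[conj (ph ζ) * v 0, ph ζ ^ 3 * v 1]
/-- the transported path -/
def A (ζ : ℂ) (u : V) : V :=
  !₂[ph ζ * (Pt.H (‖ζ‖ ^ 2 - 1) (conj (ph ζ) ^ 2 * u 0, conj (ph ζ) ^ 3 * u 1)).1,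
    ph ζ ^ 6 * (Pt.H (‖ζ‖ ^ 2 - 1) (conj (ph ζ) ^ 2 * u 0, conj (ph ζ) ^ 3 * u 1)).2]

theorem J_norm (ζ : ℂ) (v : V) : ‖J ζ v‖ = ‖v‖ :=
  nrm2 (by simp [J, ph_norm]) (by simp [J, ph_norm])

theorem J_smul (ζ : ℂ) (t : ℝ) (v : V) : J ζ (t • v) = t • J ζ v :=
  ext2 (by simp [J]; ring) (by simp [J]; ring)

theorem J_eqv {c ζ : ℂ} (hc : ‖c‖ = 1) (h : ζ ≠ 0) (v : V) : J (c * ζ) (aV c v) = aW c (J ζ v) := by
  refine ext2 ?_ ?_ <;> simp only [J, aV, aW, ph_mul hc h] <;> simp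
  · linear_combination (c * conj (ph ζ) * v 0) * cc hc
  · ring

theorem A_lo {ζ : ℂ} (h : ‖ζ‖ ^ 2 ≤ 1) (u : V) :
    A ζ u = !₂[(Pt.P (u 0, u 1)).1, (Pt.P (u 0, u 1)).2] := by
  have e := Pt.P_equiv (conj (ph ζ)) (by simp [ph_norm]) (u 0, u 1)
  have k := cc (ph_norm ζ)
  unfold A
  rw [Pt.H_of_le (by linarith), e]
  refine ext2 ?_ ?_ <;> simp
  · linear_combination (Pt.P (u 0, u 1)).1 * k
  · rw [← mul_assoc, ← mul_pow, mul_comm (ph ζ), k]; simp

theorem A_hi {ζ : ℂ} (h : 2 ≤ ‖ζ‖ ^ 2) (u : V) : A ζ u = J ζ u := by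
  have k := cc (ph_norm ζ)
  unfold A J
  rw [Pt.H_of_ge (by linarith)]
  refine ext2 ?_ ?_ <;> simp
  · linear_combination (conj (ph ζ) * u 0) * k
  · linear_combination (ph ζ ^ 3 * u 1 * ((conj (ph ζ) * ph ζ) ^ 2 + conj (ph ζ) * ph ζ + 1)) * k

theorem A_eqv {c : ℂ} (hc : ‖c‖ = 1) (ζ : ℂ) (u : V) : A (c * ζ) (aV c u) = aW c (A ζ u) := by
  by_cases h : ζ = 0
  · subst h
    have e := Pt.P_equiv c hc (u 0, u 1)
    rw [A_lo (by simp), A_lo (by simp)]
    refine ext2 ?_ ?_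
    · simpa [aV, aW] using congrArg Prod.fst e
    · simpa [aV, aW] using congrArg Prod.snd e
  have k := cc hc
  have a : conj (c * ph ζ) ^ 2 * aV c u 0 = conj (ph ζ) ^ 2 * u 0 := by
    simp [aV]; linear_combination (conj (ph ζ) ^ 2 * u 0 * (conj c * c + 1)) * k
  have b : conj (c * ph ζ) ^ 3 * aV c u 1 = conj (ph ζ) ^ 3 * u 1 := by
    simp [aV]; linear_combination (conj (ph ζ) ^ 3 * u 1 * ((conj c * c) ^ 2 + conj c * c + 1)) * k
  unfold A
  rw [ph_mul hc h, a, b, norm_mul, hc, one_mul]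
  refine ext2 ?_ ?_ <;> simp [aW] <;> ring

theorem A_ne (ζ : ℂ) {u : V} (h : u ≠ 0) : A ζ u ≠ 0 := fun e => by
  have p : ph ζ ≠ 0 := fun z => by simpa [z] using ph_norm ζ
  refine Pt.H_ne (‖ζ‖ ^ 2 - 1) (z := (conj (ph ζ) ^ 2 * u 0, conj (ph ζ) ^ 3 * u 1))
    (fun z => h (ext2 ?_ ?_)) (Prod.ext ?_ ?_)
  · simpa [p] using congrArg Prod.fst z
  · simpa [p] using congrArg Prod.snd z
  · simpa [A, p] using congrArg (fun w : V => w 0) e
  · simpa [A, p] using congrArg (fun w : V => w 1) e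

section sm
variable {X : Type} [NormedAddCommGroup X] [NormedSpace ℝ X] {x : X}

theorem sm2 {f g : X → ℂ} (a : ContDiffAt ℝ ∞ f x) (b : ContDiffAt ℝ ∞ g x) :
    ContDiffAt ℝ ∞ (fun y => (!₂[f y, g y] : V)) x :=
  (contDiffAt_piLp 2).2 fun i => by
    fin_cases i
    · exact a
    · exact b

theorem smc {f : X → V} (a : ContDiffAt ℝ ∞ f x) (i : Fin 2) : ContDiffAt ℝ ∞ (fun y => f y i) x :=
  (contDiffAt_piLp 2).1 a i

theorem smj {f : X → ℂ} (a : ContDiffAt ℝ ∞ f x) : ContDiffAt ℝ ∞ (fun y => conj (f y)) x :=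
  Complex.conjCLE.contDiff.contDiffAt.comp x a
end sm

theorem ph_sm {p : ℂ × V} (h : p.1 ≠ 0) : ContDiffAt ℝ ∞ (fun q : ℂ × V => ph q.1) p := by
  have a : ContDiffAt ℝ ∞ (fun q : ℂ × V => (‖q.1‖⁻¹ : ℝ) • q.1) p :=
    ((contDiffAt_fst.norm ℂ h).inv (norm_ne_zero_iff.2 h)).smul contDiffAt_fst
  refine a.congr_of_eventuallyEq ?_
  filter_upwards [continuous_fst.continuousAt.eventually_ne h] with q k
  rw [ph_ne k, Complex.real_smul, div_eq_inv_mul]; simp

theorem A_sm (p : ℂ × V) : ContDiffAt ℝ ∞ (fun q : ℂ × V => A q.1 q.2) p := by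
  have s : ContDiffAt ℝ ∞ (fun q : ℂ × V => q.2) p := contDiffAt_snd
  by_cases h : p.1 = 0
  · have a := Pt.P_smooth.contDiffAt.comp p ((smc s 0).prodMk (smc s 1))
    refine (sm2 a.fst a.snd).congr_of_eventuallyEq ?_
    have : ∀ᶠ q : ℂ × V in 𝓝 p, ‖q.1‖ ^ 2 < 1 :=
      (continuous_fst.norm.pow 2).continuousAt.eventually_lt continuousAt_const (by simp [h])
    filter_upwards [this] with q k using A_lo k.le _
  have f := ph_sm h
  have a := Pt.H_smooth.contDiffAt.comp p (((contDiffAt_fst.norm_sq ℂ).sub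
    (contDiffAt_const (c := (1 : ℝ)))).prodMk ((((smj f).pow 2).mul (smc s 0)).prodMk
      (((smj f).pow 3).mul (smc s 1))))
  exact sm2 (f.mul a.fst) ((f.pow 6).mul a.snd)

/-- the homogeneous extension -/
def N (ζ : ℂ) (v : V) : V := (‖v‖ / ‖A ζ (‖v‖⁻¹ • v)‖) • A ζ (‖v‖⁻¹ • v)

theorem un_ne {v : V} (h : v ≠ 0) : ‖v‖⁻¹ • v ≠ 0 :=
  smul_ne_zero (inv_ne_zero (norm_ne_zero_iff.2 h)) h

theorem N_norm (ζ : ℂ) (v : V) : ‖N ζ v‖ = ‖v‖ := by
  by_cases h : v = 0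
  · simp [N, h]
  rw [N, norm_smul, norm_div, norm_norm, norm_norm,
    div_mul_cancel₀ _ (norm_ne_zero_iff.2 (A_ne ζ (un_ne h)))]

theorem N_hi {ζ : ℂ} (h : 2 ≤ ‖ζ‖ ^ 2) (v : V) : N ζ v = J ζ v := by
  by_cases z : v = 0
  · rw [z, ← norm_sub_eq_zero_iff]
    refine le_antisymm ((norm_sub_le _ _).trans ?_) (norm_nonneg _)
    simp [N_norm, J_norm]
  have := norm_ne_zero_iff.2 z
  rw [N, A_hi h, J_norm, J_smul, norm_smul, norm_inv, norm_norm, smul_smul, inv_mul_cancel₀ this,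
    div_one, mul_inv_cancel₀ this, one_smul]

theorem N_smul (ζ : ℂ) {t : ℝ} (h : 0 < t) (v : V) : N ζ (t • v) = t • N ζ v := by
  have e : ‖t • v‖⁻¹ • t • v = ‖v‖⁻¹ • v := by
    rw [norm_smul, Real.norm_of_nonneg h.le, smul_smul, mul_inv, mul_right_comm,
      inv_mul_cancel₀ h.ne', one_mul]
  rw [N, e, N, smul_smul, norm_smul, Real.norm_of_nonneg h.le, mul_div_assoc]

theorem N_eqv {c : ℂ} (hc : ‖c‖ = 1) (ζ : ℂ) (v : V) : N (c * ζ) (aV c v) = aW c (N ζ v) := by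
  rw [N, aV_norm hc, ← aV_smul, A_eqv hc, aW_norm hc, N, aW_smul]

theorem N_sm {p : ℂ × V} (h : p.2 ≠ 0) : ContDiffAt ℝ ∞ (fun q : ℂ × V => N q.1 q.2) p := by
  have n : ContDiffAt ℝ ∞ (fun q : ℂ × V => ‖q.2‖) p := contDiffAt_snd.norm ℂ h
  have a := (A_sm _).comp p (contDiffAt_fst.prodMk
    ((n.inv (norm_ne_zero_iff.2 h)).smul contDiffAt_snd))
  exact (n.div (a.norm ℂ (A_ne _ (un_ne h))) (norm_ne_zero_iff.2 (A_ne _ (un_ne h)))).smul a

/-- cut-off in the fibre -/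
def al (v : V) : ℝ := smoothTransition (200000000 * ‖v‖ ^ 2 - 1)
/-- cut-off in the base -/
def be (ζ : ℂ) : ℝ := smoothTransition (‖ζ‖ ^ 2 - 2)
/-- the family -/
def M (p : ℂ × V) : V := al p.2 • N p.1 p.2 + ((1 - al p.2) * be p.1) • J p.1 p.2

theorem al_one {v : V} (h : 1 / 10000 < ‖v‖) : al v = 1 :=
  smoothTransition.one_of_one_le (by nlinarith)

theorem M_sm : ContDiff ℝ ∞ M := by
  have a : ContDiff ℝ ∞ fun q : ℂ × V => al q.2 := smoothTransition.contDiff.comp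
    ((contDiff_const.mul (contDiff_snd.norm_sq ℂ)).sub contDiff_const)
  have b : ContDiff ℝ ∞ fun q : ℂ × V => be q.1 := smoothTransition.contDiff.comp
    ((contDiff_fst.norm_sq ℂ).sub contDiff_const)
  refine contDiff_iff_contDiffAt.2 fun p => ContDiffAt.add ?_ ?_
  · by_cases h : p.2 = 0
    · refine (contDiffAt_const (c := (0 : V))).congr_of_eventuallyEq ?_
      have : ∀ᶠ q : ℂ × V in 𝓝 p, 200000000 * ‖q.2‖ ^ 2 - 1 < 0 :=
        ContinuousAt.eventually_lt (by fun_prop) continuousAt_const (by simp [h])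
      filter_upwards [this] with q k
      rw [al, smoothTransition.zero_of_nonpos k.le, zero_smul]
    · exact a.contDiffAt.smul (N_sm h)
  · by_cases h : p.1 = 0
    · refine (contDiffAt_const (c := (0 : V))).congr_of_eventuallyEq ?_
      have : ∀ᶠ q : ℂ × V in 𝓝 p, ‖q.1‖ ^ 2 - 2 < 0 :=
        ContinuousAt.eventually_lt (by fun_prop) continuousAt_const (by simp [h])
      filter_upwards [this] with q k
      rw [be, smoothTransition.zero_of_nonpos k.le, mul_zero, zero_smul]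
    · exact ((contDiff_const.sub a).mul b).contDiffAt.smul (sm2
        ((smj (ph_sm h)).mul (smc contDiffAt_snd 0)) (((ph_sm h).pow 3).mul (smc contDiffAt_snd 1)))

end Mk

open Mk in
theorem mz : MZ := by
  refine ⟨M, M_sm, fun c ζ v hc => ?_, fun ζ v => ?_, fun ζ v h => ?_, fun ζ v t h ht => ?_,
    fun ζ v h => ?_⟩
  · simp only [M, al, be, aV_norm hc, norm_mul, hc, one_mul, N_eqv hc, aW_add, aW_smul]
    by_cases z : ζ = 0
    · rw [smoothTransition.zero_of_nonpos (x := ‖ζ‖ ^ 2 - 2) (by simp [z])]; simp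
    · rw [J_eqv hc z]
  · have a : 0 ≤ al v := smoothTransition.nonneg _
    have a' : al v ≤ 1 := smoothTransition.le_one _
    have b : 0 ≤ be ζ := smoothTransition.nonneg _
    have b' : be ζ ≤ 1 := smoothTransition.le_one _
    refine (norm_add_le _ _).trans ?_
    rw [norm_smul, norm_smul, N_norm, J_norm, Real.norm_of_nonneg a,
      Real.norm_of_nonneg (mul_nonneg (sub_nonneg.2 a') b)]
    nlinarith [mul_nonneg (mul_nonneg (sub_nonneg.2 a') (sub_nonneg.2 b')) (norm_nonneg v)]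
  · simp [M, al_one h, N_norm]
  · have h' : 1 / 10000 < ‖t • v‖ := by
      rw [norm_smul, Real.norm_of_nonneg (by linarith)]; nlinarith
    simp [M, al_one h, al_one h', N_smul ζ (zero_lt_one.trans_le ht)]
  · have z : ζ ≠ 0 := by rintro rfl; norm_num at h
    have b : be ζ = 1 := smoothTransition.one_of_one_le (by linarith)
    rw [M, N_hi (by linarith), b, mul_one, ← add_smul, add_sub_cancel, one_smul, J, ph_ne z]

end

end Crest.Agent.N218.P
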