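import Crest.Agent.N218.P.Bo

-- ▼ part N218/P/Bd0
section

/-! Row 218 (helper50): leaf BODY, part 0: gradient steps of convex functions. -/

set_option autoImplicit false
open Set Real
open scoped ContDiff RealInnerProductSpace

namespace Crest.Agent.N218.P
namespace Bd

variable {E : Type} [NormedAddCommGroup E] [InnerProductSpace ℝ E]

/-- the descent inequality -/
theorem desc {f : E → ℝ} {G : E → E} {L : ℝ} (hL : 0 ≤ L)
    (hd : ∀ y, HasFDerivAt f (innerSL ℝ (G y)) y) (hG : ∀ x y, ‖G x - G y‖ ≤ L * ‖x - y‖)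
    (y v : E) : f (y + v) ≤ f y + ⟪G y, v⟫ + L * ‖v‖ ^ 2 := by
  have h1 := (convex_closedBall y ‖v‖).norm_image_sub_le_of_norm_hasFDerivWithin_le
    (f := fun z => f z - ⟪G y, z⟫) (f' := fun z => innerSL ℝ (G z) - innerSL ℝ (G y))
    (C := L * ‖v‖)
    (fun z _ => ((hd z).sub (innerSL ℝ (G y)).hasFDerivAt).hasFDerivWithinAt)
    (fun z hz => by
      rw [← map_sub, innerSL_apply_norm]
      exact (hG z y).trans (mul_le_mul_of_nonneg_left (mem_closedBall_iff_norm.1 hz) hL))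
    (Metric.mem_closedBall_self (norm_nonneg v)) (by simp : y + v ∈ Metric.closedBall y ‖v‖)
  rw [add_sub_cancel_left, Real.norm_eq_abs, inner_add_right] at h1
  have := (abs_le.1 h1).2
  nlinarith

/-- the first-order inequality of a convex function -/
theorem cvx {f : E → ℝ} {g x : E} (hc : ConvexOn ℝ univ f) (hd : HasFDerivAt f (innerSL ℝ g) x)
    (z : E) : f x + ⟪g, z - x⟫ ≤ f z := by
  have h1 : ConvexOn ℝ univ (fun t : ℝ => f (x + t • (z - x))) := by
    refine ⟨convex_univ, fun s _ t _ a b ha hb hab => ?_⟩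
    have := hc.2 (mem_univ (x + s • (z - x))) (mem_univ (x + t • (z - x))) ha hb hab
    have e : a • (x + s • (z - x)) + b • (x + t • (z - x)) = x + (a • s + b • t) • (z - x) := by
      obtain rfl : b = 1 - a := by linarith
      simp only [smul_eq_mul]; module
    rwa [e] at this
  have h2 : HasDerivAt (fun t : ℝ => x + t • (z - x)) (z - x) 0 := by
    simpa using ((hasDerivAt_id (0:ℝ)).smul_const (z - x)).const_add x
  have h3 : HasDerivAt (fun t : ℝ => f (x + t • (z - x))) ⟪g, z - x⟫ 0 :=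
    HasFDerivAt.comp_hasDerivAt_of_eq (0:ℝ) hd h2 (by simp)
  have h4 := h1.le_slope_of_hasDerivAt (mem_univ 0) (mem_univ 1) zero_lt_one h3
  simp [slope_def_field] at h4
  linarith

/-- a short gradient step of a convex function is nonexpansive -/
theorem nonexp {f : E → ℝ} {G : E → E} {L η : ℝ} (hL : 0 ≤ L) (hc : ConvexOn ℝ univ f)
    (hd : ∀ y, HasFDerivAt f (innerSL ℝ (G y)) y) (hG : ∀ x y, ‖G x - G y‖ ≤ L * ‖x - y‖)
    (h0 : 0 ≤ η) (hη : η * L ≤ 1) (x y : E) : ‖(x - η • G x) - (y - η • G y)‖ ≤ ‖x - y‖ := by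
  have key : ∀ x y, f x - f y + ⟪G x, y - x⟫ ≤ -(η / 4) * ‖G y - G x‖ ^ 2 := fun x y => by
    have h1 := cvx hc (hd x) (y + (-(η / 2)) • (G y - G x))
    have h2 := desc hL hd hG y ((-(η / 2)) • (G y - G x))
    have h3 : ⟪G y, G y - G x⟫ - ⟪G x, G y - G x⟫ = ‖G y - G x‖ ^ 2 := by
      rw [← inner_sub_left, real_inner_self_eq_norm_sq]
    rw [add_sub_right_comm, inner_add_right, real_inner_smul_right] at h1
    rw [real_inner_smul_right, norm_smul, mul_pow, Real.norm_eq_abs, sq_abs] at h2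
    have h4 : η * L * (η * ‖G y - G x‖ ^ 2) ≤ 1 * (η * ‖G y - G x‖ ^ 2) :=
      mul_le_mul_of_nonneg_right hη (by positivity)
    have h5 : η * ⟪G y, G y - G x⟫ - η * ⟪G x, G y - G x⟫ = η * ‖G y - G x‖ ^ 2 := by
      rw [← h3]; ring
    nlinarith
  have h1 := key x y
  have h2 := key y x
  rw [norm_sub_rev (G y)] at h1
  have h3 : ⟪x - y, G x - G y⟫ = ⟪G x, x - y⟫ - ⟪G y, x - y⟫ := by
    rw [real_inner_comm, inner_sub_left]
  have h4 : ⟪G x, y - x⟫ = -⟪G x, x - y⟫ := by rw [← inner_neg_right, neg_sub]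
  have e : (x - η • G x) - (y - η • G y) = (x - y) - η • (G x - G y) := by module
  refine (pow_le_pow_iff_left₀ (norm_nonneg _) (norm_nonneg _) two_ne_zero).1 ?_
  rw [e, norm_sub_sq_real (x - y), real_inner_smul_right, norm_smul, mul_pow, Real.norm_eq_abs,
    sq_abs]
  have h5 : η / 2 * ‖G x - G y‖ ^ 2 ≤ ⟪x - y, G x - G y⟫ := by linarith
  nlinarith [mul_le_mul_of_nonneg_left h5 h0]

theorem lip_of [FiniteDimensional ℝ E] {G : E → E} (hs : ContDiff ℝ ∞ G)
    (h : ∀ y, 20000 ≤ ‖y‖ → G y = (1 / 5000 : ℝ) • y) :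
    ∃ L > 0, ∀ x y, ‖G x - G y‖ ≤ L * ‖x - y‖ := by
  have hc : HasCompactSupport fun y => G y - (1 / 5000 : ℝ) • y :=
    HasCompactSupport.intro (isCompact_closedBall (0 : E) 20000) fun y hy => by
      rw [h y (by simpa using (not_le.1 (mem_closedBall_zero_iff.not.1 hy)).le), sub_self]
  obtain ⟨C, hC⟩ := ContDiff.lipschitzWith_of_hasCompactSupport hc
    (hs.sub (contDiff_id.const_smul _)) (by simp)
  refine ⟨C + 1, by positivity, fun x y => ?_⟩
  have h1 := hC.dist_le_mul x y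
  rw [dist_eq_norm, dist_eq_norm] at h1
  have e : G x - G y = ((G x - (1 / 5000 : ℝ) • x) - (G y - (1 / 5000 : ℝ) • y)) +
      (1 / 5000 : ℝ) • (x - y) := by module
  have h2 := norm_add_le ((G x - (1 / 5000 : ℝ) • x) - (G y - (1 / 5000 : ℝ) • y))
    ((1 / 5000 : ℝ) • (x - y))
  rw [← e, norm_smul, Real.norm_of_nonneg (by norm_num)] at h2
  nlinarith [norm_nonneg (x - y)]

theorem st0 {x : ℝ} (h : x ≤ 0) : st x = 0 := Real.smoothTransition.zero_of_nonpos h
theorem st1 {x : ℝ} (h : 1 ≤ x) : st x = 1 := Real.smoothTransition.one_of_one_le h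
theorem stl (x : ℝ) : st x ≤ 1 := Real.smoothTransition.le_one x
theorem stp {x : ℝ} (h : 0 < x) : 0 < st x := Real.smoothTransition.pos_of_pos h
theorem stm : Monotone st := Real.smoothTransition.monotone
theorem sts : ContDiff ℝ ∞ st := Real.smoothTransition.contDiff

theorem st_lip : ∃ K > 0, ∀ u u' : ℝ, u' ≤ u → st u - st u' ≤ K * (u - u') := by
  have hc : HasCompactSupport fun x : ℝ => st x * st (3 - x) :=
    HasCompactSupport.intro (isCompact_Icc (a := (0:ℝ)) (b := 3)) fun x hx => by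
      rcases not_and_or.1 hx with h | h
      · rw [st0 (not_le.1 h).le, zero_mul]
      · rw [st0 (x := 3 - x) (by linarith [not_le.1 h]), mul_zero]
  obtain ⟨C, hC⟩ := ContDiff.lipschitzWith_of_hasCompactSupport (n := ∞) (𝕂 := ℝ) hc
    (Real.smoothTransition.contDiff.mul
      (Real.smoothTransition.contDiff.comp (contDiff_const.sub contDiff_id))) (by simp)
  have e : ∀ x : ℝ, st (min x 1) * st (3 - min x 1) = st x := fun x => by
    rw [st1 (x := 3 - min x 1) (by linarith [min_le_right x 1]), mul_one]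
    rcases le_total x 1 with h | h
    · rw [min_eq_left h]
    · rw [min_eq_right h, st1 h, st1 le_rfl]
  refine ⟨C + 1, by positivity, fun u u' h => ?_⟩
  have h1 := hC.dist_le_mul (min u 1) (min u' 1)
  rw [e, e, Real.dist_eq, Real.dist_eq] at h1
  have h2 : |min u 1 - min u' 1| ≤ u - u' := by
    rw [abs_le]
    rcases min_cases u 1 with a | a <;> rcases min_cases u' 1 with b | b <;>
      rw [a.1, b.1] <;> constructor <;> linarith [a.2, b.2]
  have h3 := mul_le_mul_of_nonneg_left h2 C.2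
  have h4 := le_abs_self (st u - st u')
  have h5 : (C : ℝ) * |min u 1 - min u' 1| ≤ C * (u - u') := h3
  nlinarith

end Bd
end Crest.Agent.N218.P
end

-- ▼ part N218/P/Bd1

/-! Row 218 (helper50): leaf BODY, part 1: the radial cut-off and one gradient step. -/

set_option autoImplicit false
open Set Real
open scoped ContDiff RealInnerProductSpace

namespace Crest.Agent.N218.P
namespace Bd
open Bo

noncomputable section

variable {E : Type} [NormedAddCommGroup E] [InnerProductSpace ℝ E]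

/-- the radial factor -/
def rho (s : ℝ) : ℝ := 1 - S1 (s - 140) / s
/-- the radial cut-off -/
def k1 (y : E) : E := rho ‖y‖ • y

theorem rho_mul (h : SM) (s : ℝ) : rho s * s = s - S1 (s - 140) := by
  unfold rho
  rcases eq_or_ne s 0 with rfl | hs
  · rw [h.z _ (by norm_num)]; simp
  · field_simp

theorem rho_one (h : SM) {s : ℝ} (hs : s ≤ 140) : rho s = 1 := by
  unfold rho; rw [h.z _ (by linarith)]; simp

theorem sub_mono (h : SM) : Monotone fun x => x - S1 x :=
  monotone_of_hasDerivAt_nonneg (fun x => (hasDerivAt_id x).sub (h.d x))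
    fun x => sub_nonneg.2 (stl x)

theorem rho_mem (h : SM) {s : ℝ} (hs : 0 ≤ s) : 0 ≤ rho s ∧ rho s ≤ 1 := by
  rcases le_or_gt s 140 with h1 | h1
  · rw [rho_one h h1]; norm_num
  · have h2 := h.le (s - 140) (by linarith)
    have h3 : (s - 140) * st (s - 140) ≤ (s - 140) * 1 :=
      mul_le_mul_of_nonneg_left (stl _) (by linarith)
    unfold rho
    refine ⟨sub_nonneg.2 ((div_le_one (by linarith)).2 (by linarith)), ?_⟩
    linarith [div_nonneg (h.nn (s - 140)) hs]

theorem k1_id (h : SM) {y : E} (hy : ‖y‖ ≤ 140) : k1 y = y := by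
  rw [k1, rho_one h hy, one_smul]

theorem k1_norm (h : SM) (y : E) : ‖k1 y‖ = ‖y‖ - S1 (‖y‖ - 140) := by
  rw [k1, norm_smul, Real.norm_of_nonneg (rho_mem h (norm_nonneg y)).1, rho_mul h]

theorem k1_le (h : SM) (y : E) : ‖k1 y‖ ≤ 141 := by
  rw [k1_norm h]; linarith [h.ge (‖y‖ - 140)]

theorem k1_ge (h : SM) {y : E} (hy : 140 ≤ ‖y‖) : 140 ≤ ‖k1 y‖ := by
  have := sub_mono h (show (0:ℝ) ≤ ‖y‖ - 140 by linarith)
  simp only [h.z 0 le_rfl] at this
  rw [k1_norm h]; linarith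

theorem k1_sm (h : SM) : ContDiff ℝ ∞ (k1 : E → E) := by
  refine contDiff_iff_contDiffAt.2 fun y => ?_
  rcases eq_or_ne y 0 with rfl | hy
  · refine contDiffAt_id.congr_of_eventuallyEq ?_
    filter_upwards [Metric.ball_mem_nhds (0 : E) (by norm_num : (0:ℝ) < 140)] with z hz
    exact k1_id h (mem_ball_zero_iff.1 hz).le
  · have h1 : ContDiffAt ℝ ∞ (fun z : E => ‖z‖) y := contDiffAt_norm ℝ hy
    exact (contDiffAt_const.sub ((h.sm.contDiffAt.comp y (h1.sub contDiffAt_const)).div h1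
      (norm_ne_zero_iff.2 hy))).smul contDiffAt_id

theorem k1_lip (h : SM) (x y : E) : ‖k1 x - k1 y‖ ≤ ‖x - y‖ := by
  obtain ⟨a0, a1⟩ := rho_mem h (norm_nonneg x)
  obtain ⟨b0, b1⟩ := rho_mem h (norm_nonneg y)
  have h1 : (rho ‖x‖ * ‖x‖ - rho ‖y‖ * ‖y‖) ^ 2 ≤ (‖x‖ - ‖y‖) ^ 2 := by
    rw [rho_mul h, rho_mul h]
    rcases le_total ‖x‖ ‖y‖ with c | c
    · have h2 := h.mono (show ‖x‖ - 140 ≤ ‖y‖ - 140 by linarith)
      have h3 := sub_mono h (show ‖x‖ - 140 ≤ ‖y‖ - 140 by linarith)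
      simp only at h3
      nlinarith
    · have h2 := h.mono (show ‖y‖ - 140 ≤ ‖x‖ - 140 by linarith)
      have h3 := sub_mono h (show ‖y‖ - 140 ≤ ‖x‖ - 140 by linarith)
      simp only at h3
      nlinarith
  have h2 : 0 ≤ ‖x‖ * ‖y‖ - ⟪x, y⟫ := sub_nonneg.2 (real_inner_le_norm x y)
  have h3 : rho ‖x‖ * rho ‖y‖ ≤ 1 := mul_le_one₀ a1 b0 b1
  refine (pow_le_pow_iff_left₀ (norm_nonneg _) (norm_nonneg _) two_ne_zero).1 ?_
  rw [k1, k1, norm_sub_sq_real, norm_sub_sq_real, norm_smul, norm_smul, Real.norm_of_nonneg a0,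
    Real.norm_of_nonneg b0, real_inner_smul_left, real_inner_smul_right]
  nlinarith [mul_le_mul_of_nonneg_right h3 h2]

theorem bo_zero (h : SM) (e : E) : bo e 0 ≤ -(1 / 4) := bo_in h (by simp) (by simp)

theorem k1_bo (h : SM) (e y : E) (hy : 0 < bo e y) : 0 < bo e (k1 y) ∧ bo e (k1 y) ≤ bo e y := by
  rcases le_total ‖y‖ 140 with c | c
  · rw [k1_id h c]; exact ⟨hy, le_rfl⟩
  · obtain ⟨a0, a1⟩ := rho_mem h (norm_nonneg y)
    have h1 := pow_le_pow_left₀ (by norm_num) (k1_ge h c) 2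
    refine ⟨by linarith [q_le h e (k1 y)], ?_⟩
    have h2 := (bo_cv h e).2 (mem_univ y) (mem_univ 0) a0 (sub_nonneg.2 a1) (by ring)
    rw [smul_zero, add_zero, smul_eq_mul, smul_eq_mul] at h2
    have h3 := mul_le_mul_of_nonneg_left ((bo_zero h e).trans (by linarith : -(1 / 4) ≤ bo e y))
      (sub_nonneg.2 a1)
    unfold k1; linarith

theorem small (h : SM) {e y : E} (hy : bo e y ≤ 1) : ‖y‖ ≤ 140 := by
  have := q_le h e y
  nlinarith [norm_nonneg y]

/-- one gradient step -/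
def T (e : E) (η : ℝ) (y : E) : E := y - η • (st (bo e y) • gr e y)

theorem T_sm (h : SM) (e : E) (η : ℝ) : ContDiff ℝ ∞ (T e η) :=
  contDiff_id.sub (((sts.comp (bo_sm h e)).smul (gr_sm e)).const_smul η)

theorem T_id {e y : E} (η : ℝ) (hy : bo e y ≤ 0) : T e η y = y := by
  simp [T, st0 hy]

theorem T_eqv {e : E} (η : ℝ) (A : E ≃ₗᵢ[ℝ] E) (hA : A e = e) (y : E) :
    T e η (A y) = A (T e η y) := by
  have h1 : ⟪e, A y⟫ = ⟪e, y⟫ := by rw [← A.inner_map_map e y, hA]
  have h2 : tt e (A y) = tt e y := by simp [tt, h1]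
  simp [T, gr, sg, bo_eq, h1, h2, hA]

theorem gr_far {e y : E} (he : ‖e‖ = 1) (hy : 20000 ≤ ‖y‖) : gr e y = (1 / 5000 : ℝ) • y := by
  have h1 := real_inner_le_norm e y
  rw [he, one_mul] at h1
  have : sg e y = 1 := st1 (by unfold tt; nlinarith)
  simp [gr, this]

theorem gr_le {e y : E} (he : ‖e‖ = 1) (hy : ‖y‖ ≤ 141) : ‖gr e y‖ ≤ 1 := by
  have h0 := sg0 e y
  have h1 := sg1 e y
  refine (norm_add_le _ _).trans ?_
  rw [norm_smul, norm_smul, he, Real.norm_of_nonneg (sub_nonneg.2 h1),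
    Real.norm_of_nonneg (by positivity)]
  nlinarith

theorem phi_d (h : SM) (e y : E) :
    HasFDerivAt (fun y => S1 (bo e y)) (innerSL ℝ (st (bo e y) • gr e y)) y :=
  HasFDerivAt.congr_fderiv ((h.d (bo e y)).comp_hasFDerivAt y (bo_d h e y)) (by ext v; simp)

theorem phi_cv (h : SM) (e : E) : ConvexOn ℝ univ fun y => S1 (bo e y) :=
  ⟨convex_univ, fun x _ y _ _ _ ha hb hab =>
    (h.mono ((bo_cv h e).2 (mem_univ x) (mem_univ y) ha hb hab)).trans
      (h.conv.2 (mem_univ _) (mem_univ _) ha hb hab)⟩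

/-- what is used of the step -/
structure Good (e : E) (η : ℝ) : Prop where
  pos : 0 < η
  one : ∀ x y, ‖T e η x - T e η y‖ ≤ ‖x - y‖
  p1 : ∀ u u' : ℝ, u' ≤ u → η * (st u - st u') ≤ (u - u') / 2
  step : ∀ y, ‖y‖ ≤ 141 → 0 < bo e y → 0 < bo e (T e η y) ∧
    ‖T e η y - y‖ ≤ 1128 * (bo e y - bo e (T e η y)) ∧
    η * st (bo e y) ≤ 636192 * (bo e y - bo e (T e η y))

theorem good [FiniteDimensional ℝ E] (h : SM) {e : E} (he : ‖e‖ = 1) : ∃ η, Good e η := by
  obtain ⟨L, L0, hL⟩ := lip_of (G := fun y => st (bo e y) • gr e y)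
    ((sts.comp (bo_sm h e)).smul (gr_sm e)) fun y hy => by
      have := q_le h e y
      simp only [gr_far he hy, st1 (show 1 ≤ bo e y by nlinarith), one_smul]
  obtain ⟨M, M0, hM⟩ := lip_of (gr_sm e) fun y hy => gr_far he hy
  obtain ⟨K, K0, hK⟩ := st_lip
  set η : ℝ := 1 / (2 * (L + M + K)) with hη
  have e0 : 0 < η := by positivity
  have e1 : η * L + η * M + η * K = 1 / 2 := by rw [hη]; field_simp
  have eL := mul_pos e0 L0
  have eM := mul_pos e0 M0
  have eK := mul_pos e0 K0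
  have p1 : ∀ u u' : ℝ, u' ≤ u → η * (st u - st u') ≤ (u - u') / 2 := fun u u' c => by
    have h1 := mul_le_mul_of_nonneg_left (hK u u' c) e0.le
    nlinarith
  refine ⟨η, e0, nonexp L0.le (phi_cv h e) (phi_d h e) hL e0.le (by linarith), p1,
    fun y hy hb => ?_⟩
  set a : ℝ := η * st (bo e y) with ha
  have a0 : 0 < a := mul_pos e0 (stp hb)
  have a1 : a ≤ η := by nlinarith [stl (bo e y)]
  have a2 : a ≤ bo e y / 2 := by simpa [st0 le_rfl] using p1 _ 0 hb.le
  have eT : T e η y = y + (-a) • gr e y := by rw [T, smul_smul, neg_smul, sub_eq_add_neg]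
  have g1 := gr_le he hy
  have g0 := norm_nonneg (gr e y)
  have g2 : 1 / 564 ≤ ‖gr e y‖ := by
    have h1 := cvx (bo_cv h e) (bo_d h e y) 0
    rw [zero_sub, inner_neg_right] at h1
    have h2 := real_inner_le_norm (gr e y) y
    nlinarith [bo_zero h e, mul_le_mul_of_nonneg_left hy g0]
  have h1 := cvx (bo_cv h e) (bo_d h e y) (y + (-a) • gr e y)
  have h2 := desc M0.le (bo_d h e) hM y ((-a) • gr e y)
  rw [add_sub_cancel_left, real_inner_smul_right, real_inner_self_eq_norm_sq] at h1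
  rw [real_inner_smul_right, real_inner_self_eq_norm_sq, norm_smul, norm_neg,
    Real.norm_of_nonneg a0.le] at h2
  rw [eT, add_sub_cancel_left, norm_smul, norm_neg, Real.norm_of_nonneg a0.le]
  set n := ‖gr e y‖
  have n2 : n ^ 2 ≤ 1 := by nlinarith
  have h3 : a * M ≤ 1 / 2 := by nlinarith
  have h4 : a * M * (a * n ^ 2) ≤ 1 / 2 * (a * n ^ 2) :=
    mul_le_mul_of_nonneg_right h3 (by positivity)
  have h5 : a * n ^ 2 / 2 ≤ bo e y - bo e (y + (-a) • gr e y) := by nlinarith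
  have h6 : a * n * (1 / 564) ≤ a * n * n := mul_le_mul_of_nonneg_left g2 (by positivity)
  have h7 : a * (1 / 564) ≤ a * n := mul_le_mul_of_nonneg_left g2 a0.le
  have h8 : a * n ^ 2 ≤ a * 1 := mul_le_mul_of_nonneg_left n2 a0.le
  refine ⟨by linarith, by nlinarith, by nlinarith⟩

end

end Bd
end Crest.Agent.N218.P
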