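import Crest.Agent.N218.P.Defs
import Crest.Agent.N218.P.Pre
import Crest.Agent.N218.P.Kit
import Crest.Agent.N218.A.Ana

-- ▼ part N218/P/Fam0
section

/-!
# Row 218, block A4 (helper84): body + compactly supported perturbation = `Fam`
-/

set_option autoImplicit false
open Set Filter
open scoped ContDiff RealInnerProductSpace Topology

namespace Crest.Agent.N218.P
open A

theorem ev_norm' : ‖ev‖ = 1 := by
  rw [EuclideanSpace.norm_eq]; simp [ev, Fin.sum_univ_five]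

/-- the local conditions near the top of the body -/
structure Lo (w C : ℝ) (ρ : Y → ℝ) (r : Y → Y) (η : Y) : Prop where
  reg : |ρ η| ≤ w → ∃ ξ, fderiv ℝ ρ η ξ ≠ 0
  id : ρ η ≤ 0 → r η = η
  lt : 0 < ρ η → ρ η ≤ w → ρ (r η) < ρ η
  low : 0 < ρ η → ρ η ≤ w → -(w / 4) ≤ ρ (r η)
  lip : 0 < ρ η → ρ η ≤ w → ‖r η - η‖ ≤ C * (ρ η - ρ (r η))
  inn : ρ (r η) ≤ w / 2

theorem fam0 (hB : BO) {e : Eu 11} (he : ‖e‖ = 1) (i : Y ≃ₗᵢ[ℝ] Eu 9) {w C C' : ℝ} {p : ℝ → ℝ}
    {rY : Y → Y} (hb : BR ev w C p rY) (w0 : 0 < w) (w1 : w ≤ 1 / 100000)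
    {d : Eu 11 × Y → ℝ} {k : Eu 11 × Y → Y} (ds : ContDiff ℝ ∞ d) (ks : ContDiff ℝ ∞ k)
    (dle : ∀ x η, ‖x‖ = 1 → d (x, η) ≤ 0)
    (cap : ∀ x η, ‖x‖ = 1 → 3 / 4 ≤ |⟪e, x⟫| → d (x, η) = 0)
    (far : ∀ x η, ‖x‖ = 1 → 10 ≤ ‖η‖ ∨ ‖η‖ ≤ 1 / 4 → d (x, η) = 0)
    (kfar : ∀ x η, ‖x‖ = 1 → 10 ≤ ‖η‖ → k (x, η) = 0) (kb : ∀ z, ‖k z‖ ≤ 1)
    (loc : ∀ x η, ‖x‖ = 1 → ‖η‖ ≤ 20 →
      Lo w C' (fun η => bo ev η + d (x, η)) (fun η => rY η + k (x, η)) η) :
    ∃ Φ : Fam, (∀ x η, Φ.ρ (x, i η) = bo ev η + d (x, η)) ∧ Φ.w = w ∧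
      ∀ x η, Φ.r (x, i η) = i (rY η + k (x, η)) := by
  obtain ⟨b1, b2, -, b4, -, b6, b7⟩ := hB Y ev ev_norm'
  have db := b1.differentiable (by simp)
  have dd := ds.differentiable (by simp)
  have sj : ContDiff ℝ ∞ fun z : Eu 11 × Eu 9 => (z.1, i.symm z.2) :=
    contDiff_fst.prodMk (i.symm.contDiff.comp contDiff_snd)
  have sρ : ContDiff ℝ ∞ fun z : Eu 11 × Eu 9 => bo ev (i.symm z.2) + d (z.1, i.symm z.2) :=
    (b1.comp sj.snd).add (ds.comp sj)
  have dx : ∀ x, Differentiable ℝ fun η => bo ev η + d (x, η) := fun x =>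
    db.add (dd.comp (by fun_prop))
  have fd : ∀ x y v, fderiv ℝ (fun z : Eu 11 × Eu 9 => bo ev (i.symm z.2) + d (z.1, i.symm z.2))
      (x, y) (0, v) = fderiv ℝ (fun η => bo ev η + d (x, η)) (i.symm y) (i.symm v) := fun x y v => by
    have h1 := (((sρ.differentiable (by simp)) (x, y)).hasFDerivAt.comp y
      (hasFDerivAt_prodMk_right x y)).fderiv
    have h2 := ((dx x (i.symm y)).hasFDerivAt.comp y
      i.symm.toContinuousLinearEquiv.hasFDerivAt).fderiv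
    simpa using DFunLike.congr_fun (h1.symm.trans h2) v
  have b0 : bo ev 0 ≤ -(1 / 4) := b6 0 (by simp) (by simp)
  have nb : ∀ η, bo ev η ≤ w → ‖η‖ ≤ 100 := fun η h => by
    have := b4 η
    nlinarith [norm_nonneg η]
  have mv : ∀ η, bo ev η ≤ w → ‖rY η - η‖ ≤ 1 := fun η h => by
    have h1 := b2.2 (mem_univ η) (mem_univ 0) (show 0 ≤ 1 - 4 * w by linarith)
      (show 0 ≤ 4 * w by linarith) (by ring)
    simp only [smul_zero, add_zero, smul_eq_mul] at h1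
    have h2 : bo ev ((1 - 4 * w) • η) ≤ 0 := by nlinarith
    have h3 : ‖η - (1 - 4 * w) • η‖ ≤ 1 / 2 := by
      rw [show η - (1 - 4 * w) • η = (4 * w) • η by module, norm_smul,
        Real.norm_of_nonneg (by linarith)]
      nlinarith [nb η h, norm_nonneg η]
    have h4 := hb.one η ((1 - 4 * w) • η)
    rw [hb.id _ h2] at h4
    have h5 := norm_sub_le_norm_sub_add_norm_sub (rY η) ((1 - 4 * w) • η) η
    rw [norm_sub_rev ((1 - 4 * w) • η) η] at h5
    linarith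
  have lo : ∀ x η, ‖x‖ = 1 →
      Lo w (max C C') (fun η => bo ev η + d (x, η)) (fun η => rY η + k (x, η)) η := fun x η hx => by
    rcases le_or_gt ‖η‖ 20 with h | h
    · have l := loc x η hx h
      exact ⟨l.reg, l.id, l.lt, l.low, fun a b => (l.lip a b).trans
        (mul_le_mul_of_nonneg_right (le_max_right _ _) (sub_nonneg.2 (l.lt a b).le)), l.inn⟩
    have d0 := far x η hx (.inl (by linarith))
    have k0 := kfar x η hx (by linarith)
    have d1 : bo ev η ≤ w → d (x, rY η) = 0 := fun a => far x _ hx (.inl (by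
      have := norm_sub_norm_le η (rY η)
      rw [norm_sub_rev] at this
      linarith [mv η a]))
    have e1 : (fun η => bo ev η + d (x, η)) =ᶠ[𝓝 η] bo ev :=
      ((isOpen_lt continuous_const continuous_norm).eventually_mem
        (show η ∈ {η : Y | 10 < ‖η‖} from by simp; linarith)).mono fun η' h' => by
          simp [far x η' hx (.inl (le_of_lt h'))]
    refine ⟨fun _ => ⟨η, ?_⟩, fun a => ?_, fun a b => ?_, fun a b => ?_, fun a b => ?_, ?_⟩
    · rw [e1.fderiv_eq]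
      exact (b7 η (by rintro rfl; simp at h; linarith)).1.ne'
    all_goals simp only [d0, k0, add_zero] at *
    · exact hb.id η a
    · linarith [hb.lt η a, dle x (rY η) hx]
    · linarith [hb.low η a, d1 b]
    · rw [d1 b, add_zero]
      exact (hb.lip η a b).trans
        (mul_le_mul_of_nonneg_right (le_max_left _ _) (sub_nonneg.2 (hb.lt η a).le))
    · linarith [hb.inn η, dle x (rY η) hx]
  refine ⟨⟨fun z => bo ev (i.symm z.2) + d (z.1, i.symm z.2),
    fun z => i (rY (i.symm z.2) + k (z.1, i.symm z.2)), e, w, 1 / 4, 201, 1 / 4, max C C', sρ,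
    i.contDiff.comp ((hb.sm.comp sj.snd).add (ks.comp sj)), he, w0, by norm_num, by norm_num,
    fun x y hx h => ?_, fun x y hx h => ?_, fun x y hx h => ?_, fun x hx h => ?_,
    fun x y hx h h1 _ => ?_, fun x y hx h => ?_, fun x y hx a b => ?_, fun x y hx a b => ?_,
    fun x y hx a b => ?_, fun x y hx => ?_, fun z => ?_⟩, fun x η => by simp, rfl,
    fun x η => by simp⟩
  · obtain ⟨ξ, hξ⟩ := (lo x _ hx).reg h
    exact ⟨i ξ, by rwa [fd, i.symm_apply_apply]⟩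
  · rw [← i.symm.norm_map y]
    rcases le_or_gt 10 ‖i.symm y‖ with a | a
    · simp only [far x _ hx (.inl a), add_zero] at h
      linarith [nb _ h]
    · linarith
  · rw [← i.symm.norm_map y] at h
    have := real_inner_le_norm ev (i.symm y)
    rw [ev_norm'] at this
    simp only [far x _ hx (.inr h), add_zero]
    linarith [b6 (i.symm y) (by linarith) (by linarith)]
  · simp only [cap x _ hx (by linarith), add_zero]
    exact (b2.comp_linearMap i.symm.toLinearEquiv.toLinearMap :)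
  · rw [fd]
    simp only [cap x _ hx (by linarith), add_zero]
    refine (b7 _ fun h0 => ?_).1
    rw [← i.symm.norm_map y, h0, norm_zero] at h1
    linarith
  · have := (lo x _ hx).id h
    simp only at this ⊢
    rw [this, i.apply_symm_apply]
  · simpa using (lo x _ hx).lt a b
  · simpa using (lo x _ hx).low a b
  · have := (lo x _ hx).lip a b
    rw [← i.norm_map, map_sub, i.apply_symm_apply] at this
    simpa using this
  · simpa using (lo x (i.symm y) hx).inn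
  · rw [i.norm_map]
    linarith [norm_add_le (rY (i.symm z.2)) (k (z.1, i.symm z.2)), hb.bd (i.symm z.2),
      kb (z.1, i.symm z.2)]

end Crest.Agent.N218.P
end

-- ▼ part N218/P/Fam

/-!
# Row 218, block A4 (helper84): the family of the example
-/

set_option autoImplicit false
open Set Filter
open scoped ContDiff RealInnerProductSpace Topology

namespace Crest.Agent.N218.P
open A Sh

namespace Pre
variable {Λ : ℝ} (h : Pre Λ)

theorem j_le (η : Y) : ‖(h.j η).1‖ ≤ ‖η‖ := by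
  have := h.hF.jn η
  rw [Prod.norm_def, h.hF.j2, Real.norm_eq_abs]
  exact max_le (abs_le_of_sq_le_sq' (by nlinarith) (norm_nonneg _)).2 (abs_u2_le η)

theorem sym_le (H : E 8 × ℝ) (u : ℝ) : ‖H‖ ≤ ‖h.j.symm (H, u)‖ ∧ |u| ≤ ‖h.j.symm (H, u)‖ :=
  ⟨by simpa using h.j_le (h.j.symm (H, u)), by
    simpa [← h.hF.j1] using abs_u1_le (h.j.symm (H, u))⟩

/-- a label family placed on the sheets -/
noncomputable def pu {W : Type} [NormedAddCommGroup W] [NormedSpace ℝ W]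
    (γ : (E 3 × E 3) × Y → W) (z : Eu 11 × Y) : W :=
  h.S.ex (sc h.j h.ε γ) ((h.π z.1, (h.j z.2).1), (h.j z.2).2)

section
variable {W : Type} [NormedAddCommGroup W] [NormedSpace ℝ W] {γ : (E 3 × E 3) × Y → W}
  (h0 : ∀ n η, h.S.r / 2 ≤ ‖n.2‖ ∨ h.A ≤ ‖η‖ → γ (n, η) = 0)
include h0

theorem sc_ne {n : E 3 × E 3} {H : E 8 × ℝ} {u : ℝ} (hn : sc h.j h.ε γ (n, H, u) ≠ 0) :
    ‖n.2‖ ≤ h.S.r / 2 ∧ ‖H‖ ≤ h.ε * h.A ∧ |u - 1| ≤ h.ε * h.A := by
  have a : ¬(h.S.r / 2 ≤ ‖n.2‖ ∨ h.A ≤ ‖h.ε⁻¹ • h.j.symm (H, u - 1)‖) := fun a =>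
    hn (by simp only [sc, h0 _ _ a, smul_zero])
  rw [not_or, not_le, not_le, norm_smul, norm_inv, Real.norm_of_nonneg h.ε0.le,
    inv_mul_lt_iff₀ h.ε0] at a
  exact ⟨a.1.le, (h.sym_le H _).1.trans a.2.le, (h.sym_le H _).2.trans a.2.le⟩

theorem pu_sm (hs : ContDiff ℝ ∞ γ) : ContDiff ℝ ∞ (h.pu γ) := by
  have := h.S.r0
  have := h.Ar
  refine (h.S.ext (a := h.S.r / 2) (b := h.ε * h.A) (g := sc h.j h.ε γ) ?_ (by linarith)
    (by linarith) fun l η u hn => by_contra fun a =>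
      hn ⟨(h.sc_ne h0 a).1, (h.sc_ne h0 a).2.1⟩).comp (by fun_prop)
  exact (hs.comp (by fun_prop)).const_smul _

theorem pu_ne {x : Eu 11} {η : Y} (hn : h.pu γ (x, η) ≠ 0) :
    ‖h.S.H (h.π x, (h.j η).1)‖ ≤ h.ε * h.A ∧ 3 / 4 ≤ u1 η ∧ ‖η‖ ≤ 3 ∧
      (‖x‖ = 1 → 3 / 4 ≤ ⟪h.e', x⟫ ^ 2) := by
  have hz : (h.π x, (h.j η).1) ∈ h.S.O := by_contra fun a => hn (h.S.ex_out _ a _)
  rw [pu, h.S.ex_in _ hz] at hn
  obtain ⟨a, b, c⟩ := h.sc_ne h0 hn
  have e1 := h.εA
  have e2 := h.Ar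
  have e3 := h.S.r0
  rw [h.hF.j1, abs_le] at c
  have d := norm_le_norm_sub_add (h.j η).1 (h.S.H (h.π x, (h.j η).1))
  have e := h.S.pos _ hz
  have f1 := norm_fst_le (h.j η).1
  have f2 := norm_snd_le (h.j η).1
  rw [h.hF.j2, Real.norm_eq_abs] at f2
  refine ⟨b, by linarith, abs_le_of_sq_le_sq' ?_ (by norm_num) |>.2, fun hx => ?_⟩
  · rw [← h.hF.jn η, ← sq_abs (u2 η)]
    simp only at c d e
    nlinarith [norm_nonneg (h.j η).1.1, abs_nonneg (u2 η)]
  · have g1 := h.sup _ hz a (by linarith)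
    have g2 := h.πn x
    rw [hx] at g2
    simp only at g1
    nlinarith [sq_pos_of_pos h.K0]

theorem chi {x : Eu 11} (hx : ‖x‖ = 1) (η : Y) : st (2 * ⟪h.e', x⟫) • h.pu γ (x, η) =
    if 0 < ⟪h.e', x⟫ then h.pu γ (x, η) else 0 := by
  by_cases a : h.pu γ (x, η) = 0
  · simp [a]
  have b := (h.pu_ne h0 a).2.2.2 hx
  split_ifs with c
  · rw [st, Real.smoothTransition.one_of_one_le (by nlinarith), one_smul]
  · rw [st, Real.smoothTransition.zero_of_nonpos (by linarith), zero_smul]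

omit h0 in
theorem pu_eq {x : Eu 11} {η : Y} (hz : (h.π x, (h.j η).1) ∈ h.S.O) {c η' : Y}
    (hc : h.j c = ((h.j η).1 - h.S.H (h.π x, (h.j η).1), 1)) (hη : ‖(h.j (η' - c)).1‖ < h.S.r) :
    h.pu γ (x, η') = h.ε • γ (h.S.W (h.π x, (h.j η).1), h.ε⁻¹ • (η' - c)) := by
  obtain ⟨a, b, d⟩ := h.S.tr _ hz _ hη
  have e : (h.j η).1 - h.S.H (h.π x, (h.j η).1) + (h.j (η' - c)).1 = (h.j η').1 := by
    rw [map_sub, hc]; simp
  simp only [e] at a b d
  rw [pu, h.S.ex_in _ a, sc, b, d]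
  congr 4
  rw [ContinuousLinearEquiv.symm_apply_eq]
  refine Prod.ext rfl ?_
  rw [map_sub, hc]; rfl
end

theorem pu_le (z : Eu 11 × Y) : ‖h.pu h.g z‖ ≤ h.ε * h.A := by
  have := h.ε0
  by_cases hz : (h.π z.1, (h.j z.2).1) ∈ h.S.O
  · rw [pu, h.S.ex_in _ hz, sc, norm_smul, Real.norm_of_nonneg this.le]
    exact mul_le_mul_of_nonneg_left (h.gb _ (h.hS.mem _ hz) _) this.le
  · rw [pu, h.S.ex_out _ hz, norm_zero]
    exact mul_nonneg this.le (by linarith [h.A1])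

theorem u1_σ (α : ℂ × ℂ) (η : Y) : u1 (h.σ α η) = u1 η := by simp only [u1, h.hF.vert]

theorem pu_np (z : Eu 11 × Y) : h.pu h.f z ≤ 0 := by
  by_cases hz : (h.π z.1, (h.j z.2).1) ∈ h.S.O
  · obtain ⟨a, b, o⟩ := h.ov _ (h.hS.mem _ hz)
    rw [pu, h.S.ex_in _ hz, sc, h.fv _ (h.hS.mem _ hz) a b _ o, ← h.u1_σ (lab h.s a b).2]
    exact mul_nonpos_of_nonneg_of_nonpos h.ε0.le (sub_nonpos.2 (h.hL.le _ _))
  · rw [pu, h.S.ex_out _ hz]

theorem εw : 0 < h.ε * h.w ∧ h.ε * h.w ≤ 1 / 100000 :=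
  ⟨mul_pos h.ε0 h.w0, by nlinarith [h.ε0, h.ε1, h.w0, h.w1]⟩

theorem lo_body {ρ : Y → ℝ} {r : Y → Y} {η : Y} {C : ℝ} (hC : h.C' ≤ C) (a : ρ η = bo ev η)
    (b : r η = h.rY η) (c : ρ (h.rY η) = bo ev (h.rY η))
    (d : |bo ev η| ≤ h.ε * h.w → ∃ ξ, fderiv ℝ ρ η ξ ≠ 0) : Lo (h.ε * h.w) C ρ r η := by
  have := h.εw.1
  refine ⟨?_, ?_, ?_, ?_, ?_, ?_⟩ <;> simp only [a, b, c]
  · exact d
  · exact h.hb.id η
  · exact fun u _ => h.hb.lt η u
  · exact fun u _ => by linarith [h.hb.low η u]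
  · exact fun u v => (h.hb.lip η u v).trans
      (mul_le_mul_of_nonneg_right hC (sub_nonneg.2 (h.hb.lt η u).le))
  · linarith [h.hb.inn η]

theorem lo (hB : BO) (x : Eu 11) {η : Y} (hη : ‖η‖ ≤ 20) :
    Lo (h.ε * h.w) (max h.C' (h.KF * h.C)) (fun η => bo ev η + h.pu h.f (x, η))
      (fun η => h.rY η + h.pu h.g (x, η)) η := by
  obtain ⟨b1, -, -, -, b5, b6, -⟩ := hB Y ev norm_ev
  simp only [inner_ev] at b5 b6
  obtain ⟨w0, w1⟩ := h.εw
  have e0 := h.ε0
  have eA := h.εA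
  have dρ : Differentiable ℝ fun η => bo ev η + h.pu h.f (x, η) :=
    (b1.add ((h.pu_sm h.f0 h.fs).comp (by fun_prop))).differentiable (by simp)
  have fl := h.hb.flat η hη
  rw [inner_ev] at fl
  have uev : u1 ev = 1 := by simp [u1, ev]
  have jv : ∀ t : ℝ, (h.j (η + t • ev)).1 = (h.j η).1 := fun t => by simp [h.hF.je]
  have jr : (h.j (h.rY η)).1 = (h.j η).1 := by rw [fl, sub_eq_add_neg, ← neg_smul, jv]
  by_cases hu : u1 η < 3 / 4
  · have d0 : h.pu h.f (x, η) = 0 := by_contra fun a => by linarith [(h.pu_ne h.f0 a).2.1]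
    have k0 : h.pu h.g (x, η) = 0 := by_contra fun a => by linarith [(h.pu_ne h.g0 a).2.1]
    have c : bo ev η ≤ -(1 / 4) := by
      rcases le_total (u1 η) (1 / 2) with a | a
      · exact b6 η (by linarith) a
      · linarith [b5 η (by linarith) a]
    exact h.lo_body (le_max_left _ _) (by simp [d0]) (by simp [k0])
      (by simp [h.hb.id η (by linarith), d0]) fun a => by linarith [(abs_le.1 a).1]
  rw [not_lt] at hu
  have near : ∀ v : Y, ∀ᶠ t : ℝ in 𝓝 0, bo ev (η + t • v) = u1 (η + t • v) - 1 := fun v => by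
    have c : ContinuousAt (fun t : ℝ => η + t • v) 0 := by fun_prop
    filter_upwards [c.norm.eventually_lt continuousAt_const (show _ < (40 : ℝ) by simp; linarith),
      (continuousAt_const (y := (1 / 2 : ℝ))).eventually_lt
        (u1_sm.continuous.continuousAt.comp c) (by simp; linarith)] with t a b
    exact b5 _ a.le b.le
  by_cases hz : (h.π x, (h.j η).1) ∈ h.S.O
  swap
  · have z0 : ∀ {W : Type} [NormedAddCommGroup W] [NormedSpace ℝ W] (γ : (E 3 × E 3) × Y → W) η',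
        (h.j η').1 = (h.j η).1 → h.pu γ (x, η') = 0 := fun γ η' a => by
      rw [pu]; exact h.S.ex_out _ (by rwa [a]) _
    refine h.lo_body (le_max_left _ _) (by simp [z0 _ η rfl]) (by simp [z0 _ η rfl])
      (by simp [z0 _ _ jr]) fun _ => ⟨ev, ?_⟩
    have a := has_line dρ η ev 0
    have b : HasDerivAt (fun t : ℝ => u1 η + t - 1) 1 0 :=
      ((hasDerivAt_id (0 : ℝ)).const_add _).sub_const _
    have := a.unique (b.congr_of_eventuallyEq ((near ev).mono fun t ht => by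
      simp only [ht, z0 _ _ (jv t), u1_add, u1_smul, uev]; ring))
    simp only [zero_smul, add_zero] at this
    rw [this]; exact one_ne_zero
  have hn := h.hS.mem _ hz
  obtain ⟨a, b, o⟩ := h.ov _ hn
  obtain ⟨α1, α2⟩ := h.al _ hn a b o
  set l := lab h.s a b
  have α0 : l.2 ≠ 0 := fun q => by rw [q, norm_zero] at α1; linarith
  obtain ⟨c, hc⟩ := h.j.surjective ((h.j η).1 - h.S.H (h.π x, (h.j η).1), 1)
  have uc : u1 c = 1 := by rw [← h.hF.j1, hc]
  have jc : ∀ η', (h.j η').1 = (h.j η).1 → (h.j (η' - c)).1 = h.S.H (h.π x, (h.j η).1) :=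
    fun η' q => by rw [map_sub, hc]; simp [q]
  have hH := (h.S.bd _ hz).2
  have key : ∀ η', ‖(h.j (η' - c)).1‖ < h.S.r → bo ev η' = u1 η' - 1 →
      bo ev η' + h.pu h.f (x, η') = h.ε * F h.M (l.1, h.σ l.2 (h.ε⁻¹ • (η' - c))) :=
    fun η' q q' => by
      rw [h.pu_eq hz hc q, h.fv _ hn a b _ o, q', u1_smul, u1_sub, uc, smul_eq_mul]
      field_simp
      ring
  set ξ := h.σ l.2 (h.ε⁻¹ • (η - c)) with hξ
  have uξ : h.ε * u1 ξ = u1 η - 1 := by rw [hξ, h.u1_σ, u1_smul, u1_sub, uc]; field_simp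
  have eη : η = c + h.ε • h.σ' l.2 ξ := by
    rw [hξ, h.hF.li _ _ α0, smul_inv_smul₀ e0.ne']; abel
  have er : h.rY η + h.pu h.g (x, η) = c + h.ε • h.σ' l.2 (h.R (l, ξ)) := by
    rw [h.pu_eq hz hc (by rwa [jc η rfl]), h.gv _ hn a b _ o, ← hξ, fl, piH, pl, u1_smul, u1_sub,
      uc, mul_inv_cancel_left₀ e0.ne', smul_sub, smul_sub h.ε, smul_inv_smul₀ e0.ne', smul_smul,
      show h.ε * (h.ε⁻¹ * (u1 η - 1) - h.p (u1 η - 1) / h.ε) = u1 η - 1 - h.p (u1 η - 1) by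
        field_simp]
    abel
  have ρ0 := key η (by rwa [jc η rfl]) (b5 η (by linarith) (by linarith))
  have kb := h.pu_le (x, η)
  have ρ1 := key (h.rY η + h.pu h.g (x, η)) (by
    rw [add_sub_right_comm, map_add, Prod.fst_add, jc _ jr]
    by_cases q : h.pu h.g (x, η) = 0
    · simpa [q] using hH
    · linarith [norm_add_le (h.S.H (h.π x, (h.j η).1)) (h.j (h.pu h.g (x, η))).1,
        h.j_le (h.pu h.g (x, η)), (h.pu_ne h.g0 q).1, h.Ar, h.S.r0]) (by
    have q1 := h.hb.one η 0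
    rw [h.hb.id 0 (by linarith [b6 0 (by simp) (by simp [u1])]), sub_zero, sub_zero] at q1
    have q2 : 3 / 4 ≤ u1 (h.rY η) := by
      rw [fl, u1_sub, u1_smul, uev]
      rcases le_or_gt (u1 η - 1) 0 with q | q
      · linarith [h.hb.pp.id _ q]
      · linarith [h.hb.pp.nn _ q]
    refine b5 _ (by linarith [norm_add_le (h.rY η) (h.pu h.g (x, η))]) ?_
    rw [u1_add]
    linarith [(abs_le.1 ((abs_u1_le (h.pu h.g (x, η))).trans kb)).1])
  rw [er, add_sub_cancel_left, inv_smul_smul₀ e0.ne', h.hF.ri _ _ α0] at ρ1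
  rw [← hξ] at ρ0
  have pos : 0 < h.ε * F h.M (l.1, ξ) → 0 < F h.M (l.1, ξ) := fun q => pos_of_mul_pos_right q e0.le
  have le : h.ε * F h.M (l.1, ξ) ≤ h.ε * h.w → F h.M (l.1, ξ) ≤ h.w :=
    fun q => le_of_mul_le_mul_left q e0
  refine ⟨?_, ?_, ?_, ?_, ?_, ?_⟩ <;> simp only [ρ0, er, ρ1]
  · intro q
    rw [abs_mul, abs_of_pos e0] at q
    obtain ⟨ξ0, q0⟩ := h.hL.reg l.1 ξ ((le_of_mul_le_mul_left q e0).trans h.w1)
    refine ⟨h.ε • h.σ' l.2 ξ0, ?_⟩
    have s1 := has_line dρ η (h.ε • h.σ' l.2 ξ0) 0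
    have s2 := (has_line (h.hL.sm.differentiable (by simp)) (l.1, ξ) (0, ξ0) 0).const_mul h.ε
    have c1 : ContinuousAt (fun t : ℝ => ‖(h.j (η + t • h.ε • h.σ' l.2 ξ0 - c)).1‖) 0 := by fun_prop
    have := s1.unique (s2.congr_of_eventuallyEq (by
      filter_upwards [near (h.ε • h.σ' l.2 ξ0), c1.eventually_lt continuousAt_const
        (show _ < h.S.r by simpa [← jc η rfl] using hH)] with t t1 t2
      rw [key _ t2 t1, add_sub_right_comm, smul_add, map_add, ← hξ, smul_comm t,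
        inv_smul_smul₀ e0.ne', map_smul, h.hF.ri _ _ α0]
      simp))
    simp only [zero_smul, add_zero] at this
    rw [this]; exact mul_ne_zero e0.ne' q0
  · intro q
    rw [h.hR.id l ξ (nonpos_of_mul_nonpos_right q e0), ← eη]
  · exact fun q q' => mul_lt_mul_of_pos_left (h.hR.lt l ξ (pos q) (le q')) e0
  · exact fun q q' => by nlinarith [h.hR.low l ξ (pos q) (le q')]
  · intro q q'
    have s1 := h.hR.lip l ξ (pos q) (le q')
    have s2 := (h.hR.lt l ξ (pos q) (le q')).le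
    have s3 := (h.σ' l.2).le_of_opNorm_le (h.hK _ α1 α2).2 (h.R (l, ξ) - ξ)
    have s4 : 0 ≤ h.KF := (norm_nonneg _).trans (h.hK _ α1 α2).2
    nth_rewrite 1 [eη]
    rw [add_sub_add_left_eq_sub, ← smul_sub, ← map_sub, norm_smul, Real.norm_of_nonneg e0.le,
      ← mul_sub, mul_left_comm]
    refine mul_le_mul_of_nonneg_left ?_ e0.le
    nlinarith [mul_le_mul_of_nonneg_left s1 s4,
      mul_le_mul_of_nonneg_right (le_max_right h.C' (h.KF * h.C)) (sub_nonneg.2 s2)]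
  · rcases le_or_gt (u1 ξ) 30 with q | q
    · nlinarith [h.hR.inn l ξ α0 q]
    · have s1 := h.hL.le l.1 (h.R (l, ξ))
      have s2 : u1 (h.R (l, ξ)) = h.p (u1 η - 1) / h.ε := by
        rw [h.hR.out l ξ (.inr (by linarith [le_abs_self (u1 ξ), abs_u1_le ξ])), piH, u1_sub,
          u1_smul, uev, pl, uξ]
        ring
      rw [s2, le_div_iff₀ e0] at s1
      linarith [h.hb.pp.le (u1 η - 1) (by linarith [le_abs_self (u1 η), abs_u1_le η])]

end Pre

theorem fam : FAM := by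
  intro hB Λ h
  have sχ : ContDiff ℝ ∞ fun z : Eu 11 × Y => st (2 * ⟪h.e', z.1⟫) :=
    st_sm.comp (contDiff_const.mul (contDiff_const.inner ℝ contDiff_fst))
  have z0 : ∀ {W : Type} [NormedAddCommGroup W] [NormedSpace ℝ W] {a : W} (t : ℝ),
      (a ≠ 0 → False) → t • a = 0 := fun t q => by rw [not_not.1 q, smul_zero]
  obtain ⟨Φ, -, -, e⟩ := fam0 hB h.ee h.i h.hb h.εw.1 h.εw.2 (C' := max h.C' (h.KF * h.C))
    (d := fun z => st (2 * ⟪h.e', z.1⟫) • h.pu h.f z)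
    (k := fun z => st (2 * ⟪h.e', z.1⟫) • h.pu h.g z)
    (sχ.smul (h.pu_sm h.f0 h.fs)) (sχ.smul (h.pu_sm h.g0 h.gs))
    (fun x η _ => mul_nonpos_of_nonneg_of_nonpos (Real.smoothTransition.nonneg _) (h.pu_np _))
    (fun x η hx q => z0 _ fun a => by
      have b := (h.pu_ne h.f0 a).2.2.2 hx
      have c := real_inner_self_nonneg (x := x - ⟪h.e, x⟫ • h.e - ⟪h.e', x⟫ • h.e')
      simp only [inner_sub_left, inner_sub_right, real_inner_smul_left, inner_smul_right,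
        real_inner_self_eq_norm_sq, hx, h.ee, h.e1, h.oe, real_inner_comm h.e h.e',
        real_inner_comm h.e x, real_inner_comm h.e' x] at c
      nlinarith [sq_abs ⟪h.e, x⟫])
    (fun x η _ q => z0 _ fun a => by
      obtain ⟨-, b, c, -⟩ := h.pu_ne h.f0 a
      rcases q with q | q <;> linarith [le_abs_self (u1 η), abs_u1_le η])
    (fun x η _ q => z0 _ fun a => by linarith [(h.pu_ne h.g0 a).2.2.1])
    (fun z => by
      rw [norm_smul, Real.norm_of_nonneg (Real.smoothTransition.nonneg _)]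
      nlinarith [Real.smoothTransition.le_one (2 * ⟪h.e', z.1⟫), h.pu_le z, h.εA,
        norm_nonneg (h.pu h.g z)])
    (fun x η hx hη => by
      simp only [h.chi h.f0 hx, h.chi h.g0 hx]
      split_ifs
      · exact h.lo hB x hη
      · obtain ⟨-, -, -, -, -, b6, b7⟩ := hB Y ev norm_ev
        simp only [add_zero]
        refine h.lo_body (le_max_left _ _) rfl rfl rfl fun a => ⟨η, (b7 η ?_).1.ne'⟩
        rintro rfl
        linarith [b6 0 (by simp) (by simp), (abs_le.1 a).1, h.εw.2])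
  exact ⟨Φ, fun x η hx => by rw [e, h.chi h.g0 hx]; rfl⟩

end Crest.Agent.N218.P
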