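import Crest.Agent.N218.P.Defs

-- ▼ part N218/P/Reg0
section

/-! # Row 218 (helper26): calculus of `smin`, `G` and the field `X` -/

set_option autoImplicit false
open Set Real
open scoped ContDiff RealInnerProductSpace ComplexConjugate Topology

namespace Crest.Agent.N218.P.Rg

noncomputable section

theorem st_nn (x : ℝ) : 0 ≤ st x := Real.smoothTransition.nonneg x
theorem st_le (x : ℝ) : st x ≤ 1 := Real.smoothTransition.le_one x

theorem Sm_d (h : SM) (t : ℝ) : HasDerivAt Sm (st (500 * t + 1 / 2)) t := by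
  have := ((h.d (500 * t + 1 / 2)).comp t
    (((hasDerivAt_id t).const_mul 500).add_const (1 / 2))).div_const 500
  exact this.congr_deriv (by ring)

theorem Ee_d (h : SM) (x : ℝ) : HasDerivAt Ee (1000 * st (10 * x)) x := by
  have := ((h.d (10 * x)).comp x ((hasDerivAt_id x).const_mul 10)).const_mul 100
  exact this.congr_deriv (by ring)

theorem Sm_z (h : SM) {t : ℝ} (e : t ≤ -(1 / 1000)) : Sm t = 0 := by
  rw [Sm, h.z _ (by linarith), zero_div]

theorem Sm_o (h : SM) {t : ℝ} (e : 1 / 1000 ≤ t) : Sm t = t := by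
  rw [Sm, h.o _ (by linarith)]; ring

theorem Sm_nn (h : SM) (t : ℝ) : 0 ≤ Sm t := (le_max_right _ _).trans (h.Sm_ge t)

theorem smin_le (h : SM) (a b : ℝ) : smin a b ≤ a := sub_le_self _ (Sm_nn h _)

theorem smin_l (h : SM) {a b : ℝ} (e : a + 1 / 1000 ≤ b) : smin a b = a := by
  rw [smin, Sm_z h (by linarith), sub_zero]

theorem smin_r (h : SM) {a b : ℝ} (e : b + 1 / 1000 ≤ a) : smin a b = b := by
  rw [smin, Sm_o h (by linarith), sub_sub_cancel]

theorem Ee_nn (h : SM) (x : ℝ) : 0 ≤ Ee x := mul_nonneg (by norm_num) (h.nn _)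

theorem Ee_ge (h : SM) (x : ℝ) : 1000 * x - 50 ≤ Ee x := by
  have := h.ge (10 * x)
  rw [Ee]; linarith

theorem Ee_z (h : SM) {x : ℝ} (e : x ≤ 0) : Ee x = 0 := by
  rw [Ee, h.z _ (by linarith), mul_zero]

theorem Ee_le (h : SM) {τ c : ℝ} (h0 : 0 ≤ τ) (hc : 0 ≤ c) :
    Ee (τ - c) ≤ τ * (1000 * st (10 * (τ - c))) := by
  have := st_nn (10 * (τ - c))
  rcases le_total (τ - c) 0 with e | e
  · rw [Ee_z h e]; positivity
  · have := h.le (10 * (τ - c)) (by linarith)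
    rw [Ee]; nlinarith

section smooth
variable {X : Type} [NormedAddCommGroup X] [NormedSpace ℝ X] {a b c : X → ℝ}

theorem Sm_sm (h : SM) (ha : ContDiff ℝ ∞ a) : ContDiff ℝ ∞ fun x => Sm (a x) :=
  (h.sm.comp ((contDiff_const.mul ha).add contDiff_const)).div_const 500

theorem smin_sm (h : SM) (ha : ContDiff ℝ ∞ a) (hb : ContDiff ℝ ∞ b) :
    ContDiff ℝ ∞ fun x => smin (a x) (b x) := ha.sub (Sm_sm h (ha.sub hb))

theorem th_sm (h : SM) (ha : ContDiff ℝ ∞ a) : ContDiff ℝ ∞ fun x => th (a x) :=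
  contDiff_const.mul ((h.sm.comp (contDiff_const.sub ha)).sub (h.sm.comp (contDiff_const.sub ha)))

theorem Ee_sm (h : SM) (ha : ContDiff ℝ ∞ a) : ContDiff ℝ ∞ fun x => Ee (a x) :=
  contDiff_const.mul (h.sm.comp (contDiff_const.mul ha))

theorem st_sm (ha : ContDiff ℝ ∞ a) : ContDiff ℝ ∞ fun x => st (a x) :=
  Real.smoothTransition.contDiff.comp ha

theorem tau_sm {z : X → V × V × ℝ × ℝ} (hz : ContDiff ℝ ∞ z) : ContDiff ℝ ∞ fun x => tau (z x) :=
  (hz.fst.norm_sq ℝ).add (hz.snd.fst.norm_sq ℝ)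

/-- `G` is smooth in all its arguments -/
theorem G_sm (h : SM) {M : X → V → V} {z : X → V × V × ℝ × ℝ}
    (hM : ContDiff ℝ ∞ fun x => M x (z x).1) (hc : ContDiff ℝ ∞ c) (hb : ContDiff ℝ ∞ b)
    (hz : ContDiff ℝ ∞ z) : ContDiff ℝ ∞ fun x => G (M x) (c x) (b x) (z x) := by
  have t := tau_sm hz
  have s := (th_sm h t).sin
  have k := (th_sm h t).cos
  exact (((((((k.pow 2).mul (hz.fst.norm_sq ℝ)).add ((s.pow 2).mul (hz.snd.fst.norm_sq ℝ))).sub
    (((contDiff_const.mul s).mul k).mul (hM.inner ℝ hz.snd.fst))).add (hz.snd.snd.fst.pow 2)).add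
    ((hz.snd.snd.snd.sub (hb.mul ((contDiff_const.mul t).sub contDiff_const))).pow 2)).sub
    (t.div_const _) |>.add (Ee_sm h (t.sub hc))).sub contDiff_const
end smooth

/-- the splitting of `Y` as a linear map -/
def coL : Y →ₗ[ℝ] V × V × ℝ × ℝ where
  toFun := co
  map_add' x y := by
    refine Prod.ext ?_ (Prod.ext ?_ (Prod.ext ?_ ?_))
    · ext i; fin_cases i <;> simp [co, pv]
    · ext i; fin_cases i <;> simp [co, pw]
    · simp [co, u2]
    · simp [co, u1]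
  map_smul' t x := by
    refine Prod.ext ?_ (Prod.ext ?_ (Prod.ext ?_ ?_))
    · ext i; fin_cases i <;> simp [co, pv]
    · ext i; fin_cases i <;> simp [co, pw]
    · simp [co, u2]
    · simp [co, u1]

theorem co_line (η ξ : Y) (t : ℝ) : co (η + t • ξ) = co η + t • co ξ := by
  change coL _ = coL _ + t • coL _
  rw [map_add, map_smul]

theorem co_sm : ContDiff ℝ ∞ co := (LinearMap.toContinuousLinearMap coL).contDiff

theorem u1_sm : ContDiff ℝ ∞ u1 := co_sm.snd.snd.snd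

theorem co_surj (z : V × V × ℝ × ℝ) : ∃ η, co η = z := by
  refine ⟨!₂[z.1 0, z.1 1, z.2.1 0, z.2.1 1, ⟨z.2.2.1, z.2.2.2⟩],
    Prod.ext ?_ (Prod.ext ?_ (Prod.ext ?_ ?_))⟩
  · ext i; fin_cases i <;> simp [co, pv]
  · ext i; fin_cases i <;> simp [co, pw]
  · simp [co, u2]
  · simp [co, u1]

theorem co_ev : co ev = (0, 0, 0, 1) := by
  refine Prod.ext ?_ (Prod.ext ?_ (Prod.ext ?_ ?_))
  · ext i; fin_cases i <;> simp [co, pv, ev]
  · ext i; fin_cases i <;> simp [co, pw, ev]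
  · simp [co, u2, ev]
  · simp [co, u1, ev]

theorem nV (v : V) : ‖v‖ ^ 2 = ‖v 0‖ ^ 2 + ‖v 1‖ ^ 2 := by
  rw [EuclideanSpace.norm_sq_eq, Fin.sum_univ_two]

theorem nY (η : Y) : ‖η‖ ^ 2 = tau (co η) + u2 η ^ 2 + u1 η ^ 2 := by
  rw [EuclideanSpace.norm_sq_eq, Fin.sum_univ_five, tau, nV, nV, Complex.sq_norm (η 4),
    Complex.normSq_apply]
  simp [co, pv, pw, u1, u2]
  ring

theorem tau_nn (z : V × V × ℝ × ℝ) : 0 ≤ tau z := by unfold tau; positivity

/-- the quadratic part is nonnegative -/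
theorem G_ge {M : V → V} (hM : ∀ v, ‖M v‖ ≤ ‖v‖) (c b : ℝ) (z : V × V × ℝ × ℝ) :
    z.2.2.1 ^ 2 + (z.2.2.2 - b * (3 * tau z - 1)) ^ 2 - tau z / 1000 + Ee (tau z - c) - 1 / 100 ≤
      G M c b z := by
  have m := (abs_real_inner_le_norm (M z.1) z.2.1).trans
    (mul_le_mul_of_nonneg_right (hM z.1) (norm_nonneg _))
  unfold G
  generalize sin (th (tau z)) = s, cos (th (tau z)) = k, ⟪M z.1, z.2.1⟫ = μ at m ⊢
  have : 2 * s * k * μ ≤ k ^ 2 * ‖z.1‖ ^ 2 + s ^ 2 * ‖z.2.1‖ ^ 2 := by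
    have e : 2 * s * k * μ ≤ 2 * (|s| * |k|) * (‖z.1‖ * ‖z.2.1‖) :=
      calc 2 * s * k * μ ≤ |2 * s * k * μ| := le_abs_self _
        _ = 2 * (|s| * |k|) * |μ| := by rw [abs_mul, abs_mul, abs_mul, abs_two]; ring
        _ ≤ _ := mul_le_mul_of_nonneg_left m (by positivity)
    rw [← sq_abs k, ← sq_abs s]
    nlinarith [sq_nonneg (|k| * ‖z.1‖ - |s| * ‖z.2.1‖)]
  linarith

theorem G_lo (h : SM) (M : V → V) (c b : ℝ) {z : V × V × ℝ × ℝ} (e : tau z ≤ 1) : G M c b z =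
    ‖z.2.1‖ ^ 2 + z.2.2.1 ^ 2 + (z.2.2.2 - b * (3 * tau z - 1)) ^ 2 - tau z / 1000 +
      Ee (tau z - c) - 1 / 100 := by
  simp [G, h.th_lo _ e]

/-- the field `X = (v, w, u₂, 2 (u₁ + b))` increases `G` on `τ < 1` -/
theorem X_G (h : SM) (M : V → V) {c : ℝ} (hc : 0 ≤ c) (b : ℝ) {z : V × V × ℝ × ℝ} (e : tau z < 1) :
    ∃ D, HasDerivAt (fun t : ℝ => G M c b (z + t • (z.1, z.2.1, z.2.2.1, 2 * (z.2.2.2 + b)))) D 0 ∧
      2 * (G M c b z + 1 / 100) ≤ D := by
  obtain ⟨v, w, a, u⟩ := z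
  set τ := tau (v, w, a, u) with hτ
  have n1 : ∀ (x : V) (t : ℝ), ‖x + t • x‖ ^ 2 = (1 + t) ^ 2 * ‖x‖ ^ 2 := fun x t => by
    rw [show x + t • x = (1 + t) • x by rw [add_smul, one_smul], norm_smul, mul_pow, Real.norm_eq_abs, sq_abs]
  have tt : ∀ t : ℝ, tau ((v, w, a, u) + t • (v, w, a, 2 * (u + b))) = (1 + t) ^ 2 * τ := fun t => by
    simp only [hτ, tau, Prod.smul_mk, Prod.mk_add_mk, n1]; ring
  have q : HasDerivAt (fun t : ℝ => (1 + t) ^ 2) 2 0 := by
    simpa using ((hasDerivAt_id (0 : ℝ)).const_add 1).fun_pow 2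
  have ev : ∀ᶠ t in 𝓝 (0 : ℝ), (1 + t) ^ 2 * τ < 1 :=
    (q.mul_const τ).continuousAt.eventually_lt continuousAt_const (by simpa using e)
  have l : ∀ x y : ℝ, HasDerivAt (fun t : ℝ => x + t * y) y 0 := fun x y => by
    simpa using ((hasDerivAt_id (0 : ℝ)).mul_const y).const_add x
  have dE : HasDerivAt (fun t : ℝ => Ee ((1 + t) ^ 2 * τ - c))
      (1000 * st (10 * (τ - c)) * (2 * τ)) 0 := by
    have := (Ee_d h ((1 + 0) ^ 2 * τ - c)).comp (0 : ℝ) ((q.mul_const τ).sub_const c)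
    simpa [Function.comp_def] using this
  have d := (((((q.mul_const (‖w‖ ^ 2)).fun_add ((l a a).fun_pow 2)).fun_add (((l u (2 * (u + b))).fun_sub
    ((((q.mul_const τ).const_mul 3).sub_const 1).const_mul b)).fun_pow 2)).fun_sub
    ((q.mul_const τ).div_const 1000)).fun_add dE).sub_const (1 / 100)
  refine ⟨_, d.congr_of_eventuallyEq (ev.mono fun t k => ?_), ?_⟩
  · simp only
    rw [G_lo h _ _ _ (by rw [tt]; exact k.le), tt]
    simp only [Prod.smul_mk, Prod.mk_add_mk, n1, smul_eq_mul]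
  · have := Ee_le h (tau_nn (v, w, a, u)) hc
    rw [G_lo h _ _ _ e.le, ← hτ]
    rw [← hτ] at this
    norm_num
    nlinarith [sq_nonneg (u - b * (3 * τ - 1))]

/-- the derivative of `smin` along a curve -/
theorem smin_d (h : SM) {a b : ℝ → ℝ} {a' b' t : ℝ} (ha : HasDerivAt a a' t)
    (hb : HasDerivAt b b' t) : HasDerivAt (fun s => smin (a s) (b s))
      ((1 - st (500 * (a t - b t) + 1 / 2)) * a' + st (500 * (a t - b t) + 1 / 2) * b') t := by
  have := ha.fun_sub ((Sm_d h (a t - b t)).comp t (ha.fun_sub hb))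
  exact this.congr_deriv (by ring)

end

end Crest.Agent.N218.P.Rg
end

-- ▼ part N218/P/Reg
section

/-! # Row 218 (helper26): the leaf REG -/

set_option autoImplicit false
open Set Real
open scoped ContDiff RealInnerProductSpace ComplexConjugate Topology

namespace Crest.Agent.N218.P

noncomputable section

namespace Rg

variable {M : ℂ × V → V}

theorem nV_dg {a b : ℂ} (ha : ‖a‖ = 1) (hb : ‖b‖ = 1) (v : V) :
    ‖(!₂[a * v 0, b * v 1] : V)‖ = ‖v‖ := by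
  rw [← sq_eq_sq₀ (norm_nonneg _) (norm_nonneg _), nV, nV]
  simp [ha, hb]

/-- a diagonal unitary map -/
def dg {a b : ℂ} (ha : ‖a‖ = 1) (hb : ‖b‖ = 1) : V ≃ₗᵢ[ℝ] V :=
  LinearIsometry.toLinearIsometryEquiv
    { toFun := fun v => !₂[a * v 0, b * v 1]
      map_add' := fun x y => by ext i; fin_cases i <;> simp [mul_add]
      map_smul' := fun t x => by ext i; fin_cases i <;> simp <;> ring
      norm_map' := nV_dg ha hb } rfl


theorem n_aV {c : ℂ} (hc : ‖c‖ = 1) (v : V) : ‖aV c v‖ = ‖v‖ :=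
  nV_dg (by simp [hc]) (by simp [hc]) v

theorem n_aW {c : ℂ} (hc : ‖c‖ = 1) (v : V) : ‖aW c v‖ = ‖v‖ := nV_dg hc (by simp [hc]) v

theorem in_aW {c : ℂ} (hc : ‖c‖ = 1) (v w : V) : ⟪aW c v, aW c w⟫ = ⟪v, w⟫ :=
  (dg hc (b := c ^ 6) (by simp [hc])).inner_map_map v w

theorem co_act (c : ℂ) (η : Y) : co (act c η) = (aV c (pv η), aW c (pw η), u2 η, u1 η) := by
  refine Prod.ext ?_ (Prod.ext ?_ (Prod.ext ?_ ?_))
  · ext i; fin_cases i <;> simp [co, pv, act, aV]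
  · ext i; fin_cases i <;> simp [co, pw, act, aW]
  · simp [co, u2, act]
  · simp [co, u1, act]

theorem u1_act (c : ℂ) (η : Y) : u1 (act c η) = u1 η := by simp [u1, act]

/-- invariance of `G` -/
theorem G_act (hM : Mz M) {c : ℂ} (hc : ‖c‖ = 1) (ζ : ℂ) (k b : ℝ) (η : Y) :
    G (fun v => M (c * ζ, v)) k b (co (act c η)) = G (fun v => M (ζ, v)) k b (co η) := by
  rw [co_act]
  simp only [G, tau, co, hM.eqv _ _ _ hc, n_aV hc, n_aW hc, in_aW hc]

theorem c0_nn (ζ : ℂ) : 0 ≤ c0 ζ := mul_nonneg (by norm_num) (st_nn _)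
theorem c0_le (ζ : ℂ) : c0 ζ ≤ 4 := by have := st_le (4 - ‖ζ‖ ^ 2); unfold c0; linarith
theorem c0_lo {ζ : ℂ} (h : ‖ζ‖ ^ 2 ≤ 3) : c0 ζ = 4 := by
  rw [c0, st, Real.smoothTransition.one_of_one_le (by linarith), mul_one]
theorem c0_hi {ζ : ℂ} (h : 2 ≤ ‖ζ‖) : c0 ζ = 0 := by
  rw [c0, st, Real.smoothTransition.zero_of_nonpos (by nlinarith), mul_zero]
theorem c0_sm : ContDiff ℝ ∞ c0 :=
  contDiff_const.mul (st_sm (contDiff_const.sub (contDiff_norm_sq ℝ)))

theorem M_sm (hM : Mz M) (ζ : ℂ) : ContDiff ℝ ∞ fun v => M (ζ, v) :=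
  hM.sm.comp (contDiff_const.prodMk contDiff_id)

theorem euler (hM : Mz M) (ζ : ℂ) {v : V} (hv : 1 / 10000 < ‖v‖) :
    fderiv ℝ (fun v => M (ζ, v)) v v = M (ζ, v) := by
  have d := ((M_sm hM ζ).differentiable (by simp) ((1 : ℝ) • v)).hasFDerivAt.comp_hasDerivAt
    (1 : ℝ) ((hasDerivAt_id (1 : ℝ)).smul_const v)
  have d' : HasDerivWithinAt (fun t : ℝ => M (ζ, t • v)) (M (ζ, v)) (Ici 1) 1 := by
    refine HasDerivWithinAt.congr (f := fun t : ℝ => t • M (ζ, v)) ?_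
      (fun t k => hM.hom ζ v t hv k) (hM.hom ζ v 1 hv le_rfl)
    simpa using ((hasDerivAt_id (1 : ℝ)).smul_const (M (ζ, v))).hasDerivWithinAt
  simpa using (uniqueDiffWithinAt_Ici (1 : ℝ)).eq_deriv _ d.hasDerivWithinAt d'

/-- the attaching maps are admissible -/
theorem gm (hM : Mz M) (ζ : ℂ) {c : ℝ} (h0 : 0 ≤ c) (h4 : c ≤ 4) (h : c = 4 ∨ 3 ≤ ‖ζ‖ ^ 2) :
    GM (fun v => M (ζ, v)) c := by
  refine ⟨(M_sm hM ζ).differentiable (by simp), hM.le ζ, h0, h4, h.imp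
    (fun e => ⟨e, fun v k => ⟨hM.nrm ζ v k, euler hM ζ k⟩⟩) fun e => ?_⟩
  have z : ‖ζ‖ ≠ 0 := fun k => by rw [k] at e; norm_num at e
  have u : ‖ζ / (‖ζ‖ : ℂ)‖ = 1 := by simp [z]
  exact ⟨dg (a := conj (ζ / ‖ζ‖)) (b := (ζ / ‖ζ‖) ^ 3) (by rw [Complex.norm_conj, u])
    (by rw [norm_pow, u, one_pow]), funext fun v => hM.flat ζ v e⟩

theorem gm0 (hM : Mz M) (ζ : ℂ) : GM (fun v => M (ζ, v)) (c0 ζ) :=
  gm hM ζ (c0_nn ζ) (c0_le ζ) ((le_total _ _).imp_left c0_lo)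

theorem F_sm (h : SM) (hM : Mz M) : ContDiff ℝ ∞ (F M) := by
  have z : ContDiff ℝ ∞ fun p : ℂ × Y => co p.2 := co_sm.comp contDiff_snd
  have a : ContDiff ℝ ∞ fun p : ℂ × Y => u1 p.2 := u1_sm.comp contDiff_snd
  have c : ContDiff ℝ ∞ fun p : ℂ × Y => c0 p.1 := c0_sm.comp contDiff_fst
  have m : ContDiff ℝ ∞ fun p : ℂ × Y => M (p.1, (co p.2).1) :=
    hM.sm.comp (contDiff_fst.prodMk z.fst)
  have g := G_sm h (M := fun (p : ℂ × Y) v => M (p.1, v)) (z := fun p => co p.2)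
    (b := fun _ => 1) m c contDiff_const z
  exact smin_sm h a g

theorem out (h : SM) (hM : Mz M) (ζ : ℂ) (η : Y) (e : 2 ≤ ‖ζ‖ ∨ 25 ≤ ‖η‖ ∨ u1 η ≤ -(1 / 2)) :
    u1 η + 1 / 1000 ≤ G (fun v => M (ζ, v)) (c0 ζ) 1 (co η) := by
  refine le_trans ?_ (G_ge (hM.le ζ) _ _ _)
  have n := nY η
  have t := tau_nn (co η)
  have e0 := Ee_nn h (tau (co η) - c0 ζ)
  have e1 := Ee_ge h (tau (co η) - c0 ζ)
  have c4 := c0_le ζ
  change _ ≤ u2 η ^ 2 + (u1 η - _) ^ 2 - _ + _ - _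
  generalize tau (co η) = τ, u1 η = u, u2 η = a at *
  have q := sq_nonneg (u - 1 * (3 * τ - 1) - 1 / 2)
  have a0 := sq_nonneg a
  rcases e with e | e | e
  · rw [c0_hi e] at *
    rcases le_total τ (6 / 25) with k | k <;> nlinarith
  · rcases le_total (41 / 10) τ with k | k
    · nlinarith
    have n' : 625 ≤ τ + a ^ 2 + u ^ 2 := by rw [← n]; nlinarith
    rcases le_total 20 (a ^ 2) with k' | k'
    · nlinarith
    rcases le_total 24 u with k1 | k1
    · nlinarith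
    have : u ≤ -24 := by nlinarith
    nlinarith [sq_nonneg (u - 1 * (3 * τ - 1))]
  · rcases le_total τ 400 with k | k <;> nlinarith [sq_nonneg (u - 1 * (3 * τ - 1))]

/-- directional derivatives of `F` -/
theorem F_d (h : SM) (hM : Mz M) (ζ : ℂ) (η ξ : Y) {D : ℝ}
    (hD : HasDerivAt (fun t : ℝ => G (fun v => M (ζ, v)) (c0 ζ) 1 (co η + t • co ξ)) D 0) :
    fderiv ℝ (F M) (ζ, η) (0, ξ) =
      (1 - st (500 * (u1 η - G (fun v => M (ζ, v)) (c0 ζ) 1 (co η)) + 1 / 2)) * u1 ξ +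
        st (500 * (u1 η - G (fun v => M (ζ, v)) (c0 ζ) 1 (co η)) + 1 / 2) * D := by
  have l : HasDerivAt (fun t : ℝ => u1 η + t * u1 ξ) (u1 ξ) 0 := by
    simpa using ((hasDerivAt_id (0 : ℝ)).mul_const (u1 ξ)).const_add (u1 η)
  have d := smin_d h l hD
  have k : HasDerivAt (fun t : ℝ => ((ζ, η) : ℂ × Y) + t • (0, ξ)) (0, ξ) 0 := by
    simpa using ((hasDerivAt_id (0 : ℝ)).smul_const ((0, ξ) : ℂ × Y)).const_add (ζ, η)
  have d' := ((F_sm h hM).differentiable (by simp) _).hasFDerivAt.comp_hasDerivAt (0 : ℝ) k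
  simp only [zero_mul, add_zero, zero_smul] at d d'
  refine d'.unique (d.congr_of_eventuallyEq (.of_forall fun t => ?_))
  have := congrArg (fun z => z.2.2.2) (co_line η ξ t)
  simp only [Function.comp, F, Prod.smul_mk, Prod.mk_add_mk, smul_zero, add_zero, co_line]
  exact congrArg (smin · _) this

theorem G_line (h : SM) (hM : Mz M) (ζ : ℂ) (c b : ℝ) (z z' : V × V × ℝ × ℝ) :
    HasDerivAt (fun t : ℝ => G (fun v => M (ζ, v)) c b (z + t • z'))
      (fderiv ℝ (G (fun v => M (ζ, v)) c b) z z') 0 := by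
  have k : HasDerivAt (fun t : ℝ => z + t • z') z' 0 := by
    simpa using ((hasDerivAt_id (0 : ℝ)).smul_const z').const_add z
  have s : ContDiff ℝ ∞ (G (fun v => M (ζ, v)) c b) := G_sm h (M := fun _ v => M (ζ, v))
    ((M_sm hM ζ).comp contDiff_fst) contDiff_const contDiff_const contDiff_id
  simpa [Function.comp_def] using
    (s.differentiable (by simp) _).hasFDerivAt.comp_hasDerivAt (0 : ℝ) k

theorem co_X (η : Y) : co (η + (u1 η + 2) • ev) =
    ((co η).1, (co η).2.1, (co η).2.2.1, 2 * ((co η).2.2.2 + 1)) := by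
  rw [co_line, co_ev]
  simp [co]
  ring

theorem rg (h : SM) (hC : CRIT) (hM : Mz M) (ζ : ℂ) (η : Y) (e : |F M (ζ, η)| ≤ 1 / 1000) :
    ∃ ξ, fderiv ℝ (F M) (ζ, η) (0, ξ) ≠ 0 := by
  obtain ⟨e1, e2⟩ := abs_le.1 e
  set g := G (fun v => M (ζ, v)) (c0 ζ) 1 (co η) with hg
  change _ ≤ smin (u1 η) g at e1
  change smin (u1 η) g ≤ _ at e2
  rcases le_or_gt (u1 η + 1 / 1000) g with k | k
  · refine ⟨ev, ?_⟩
    rw [F_d h hM ζ η ev (G_line h hM ζ _ _ _ _), ← hg, st,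
      Real.smoothTransition.zero_of_nonpos (by linarith)]
    simp [u1, ev]
  rcases le_or_gt (g + 1 / 1000) (u1 η) with k' | k'
  · rw [smin_r h k'] at e1 e2
    by_contra! n
    have z : fderiv ℝ (G (fun v => M (ζ, v)) (c0 ζ) 1) (co η) = 0 := by
      refine ContinuousLinearMap.ext fun z' => ?_
      obtain ⟨ξ, rfl⟩ := co_surj z'
      have := n ξ
      rw [F_d h hM ζ η ξ (G_line h hM ζ _ _ _ _), ← hg, st,
        Real.smoothTransition.one_of_one_le (by linarith)] at this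
      simpa using this
    rcases hC _ _ _ _ (gm0 hM ζ) z (by linarith) with t | t
    · have : u1 η = -1 := congrArg (fun z => z.2.2.2) t
      linarith
    · linarith [t.1]
  have a1 := smin_le h (u1 η) g
  have a2 : u1 η ≤ 3 / 1000 := by
    have := h.Sm_le (u1 η - g)
    have := max_le (a := u1 η - g) (b := 0) (c := 1 / 1000) (by linarith) (by norm_num)
    unfold smin at e2
    linarith
  have t1 : tau (co η) < 1 := by
    by_contra! t
    have q : u2 η ^ 2 + (u1 η - _) ^ 2 - _ + _ - _ ≤ g :=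
      G_ge (M := fun v => M (ζ, v)) (hM.le ζ) (c0 ζ) 1 (co η)
    have := Ee_nn h (tau (co η) - c0 ζ)
    have := sq_nonneg (u2 η)
    have := mul_self_le_mul_self (a := 2 * tau (co η) - 3 / 1000)
      (b := 1 * (3 * tau (co η) - 1) - u1 η) (by linarith) (by linarith)
    nlinarith
  obtain ⟨D, d, hD⟩ := X_G h (fun v => M (ζ, v)) (c0_nn ζ) 1 t1
  rw [← co_X] at d
  refine ⟨_, (F_d h hM ζ η _ d).trans_ne (ne_of_gt ?_)⟩
  have u : u1 (η + (u1 η + 2) • ev) = 2 * (u1 η + 1) := congrArg (fun z => z.2.2.2) (co_X η)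
  rw [u, ← hg]
  rw [← hg] at hD
  have := st_nn (500 * (u1 η - g) + 1 / 2)
  have := st_le (500 * (u1 η - g) + 1 / 2)
  nlinarith

end Rg

theorem reg (h : SM) (hC : CRIT) : REG := fun M hM =>
  { sm := Rg.F_sm h hM
    inv := fun c ζ η hc => by
      simp only [F, Rg.u1_act, Rg.G_act hM hc, c0, norm_mul, hc, one_mul]
    out := fun ζ η e => Rg.smin_l h (Rg.out h hM ζ η e)
    le := fun _ _ => Rg.smin_le h _ _
    reg := Rg.rg h hC hM }

end

end Crest.Agent.N218.P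
end

-- ▼ part N218/P/Fr

/-!
# Row 218, block P: the frame `FR` (helper17)
-/

set_option autoImplicit false
open Set Real
open scoped ContDiff RealInnerProductSpace ComplexConjugate

namespace Crest.Agent.N218.P
open A Sh

noncomputable section

namespace FrK

/-- the frame as a function -/
def sf (α : ℂ × ℂ) (η : Y) : Y :=
  !₂[α.1 ^ 2 * η 1 + α.2 ^ 2 * η 2, α.1 ^ 3 * η 2 + α.2 ^ 3 * η 3, α.1 * η 0 + α.2 * η 1,
    -α.2 ^ 6 * conj (η 0) + α.1 * α.2 ^ 5 * conj (η 1) - α.1 ^ 3 * α.2 ^ 3 * conj (η 2) +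
      α.1 ^ 6 * conj (η 3), η 4]

def sl (α : ℂ × ℂ) : Y →ₗ[ℝ] Y where
  toFun := sf α
  map_add' x y := by
    ext i; fin_cases i <;> simp [sf] <;> ring
  map_smul' t x := by
    ext i; fin_cases i <;> simp [sf] <;> ring

def sg (α : ℂ × ℂ) : Y →L[ℝ] Y := LinearMap.toContinuousLinearMap (sl α)

lemma sg_apply (α : ℂ × ℂ) (η : Y) : sg α η = sf α η := rfl

lemma sg_sm : ContDiff ℝ ∞ sg := by
  rw [contDiff_clm_apply_iff]
  intro η
  rw [contDiff_piLp]
  intro i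
  fin_cases i <;> simp [sg_apply, sf] <;> fun_prop

lemma sf_inj (α : ℂ × ℂ) (hα : α ≠ 0) (η : Y) (h : sf α η = 0) : η = 0 := by
  obtain ⟨a, b⟩ := α
  have h0 : a ^ 2 * η 1 + b ^ 2 * η 2 = 0 := by simpa [sf] using congrArg (fun z : Y => z 0) h
  have h1 : a ^ 3 * η 2 + b ^ 3 * η 3 = 0 := by simpa [sf] using congrArg (fun z : Y => z 1) h
  have h2 : a * η 0 + b * η 1 = 0 := by simpa [sf] using congrArg (fun z : Y => z 2) h
  have h3 : -b ^ 6 * conj (η 0) + a * b ^ 5 * conj (η 1) - a ^ 3 * b ^ 3 * conj (η 2) +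
      a ^ 6 * conj (η 3) = 0 := by simpa [sf] using congrArg (fun z : Y => z 3) h
  have h4 : η 4 = 0 := by simpa [sf] using congrArg (fun z : Y => z 4) h
  have h3' : -conj b ^ 6 * η 0 + conj a * conj b ^ 5 * η 1 - conj a ^ 3 * conj b ^ 3 * η 2 +
      conj a ^ 6 * η 3 = 0 := by simpa using congrArg conj h3
  have hne : a ≠ 0 ∨ b ≠ 0 := by
    by_contra hc
    push Not at hc
    exact hα (by simp [hc.1, hc.2])
  set N : ℂ := (b * conj b) ^ 6 + (a * conj a) * (b * conj b) ^ 5 +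
    (a * conj a) ^ 3 * (b * conj b) ^ 3 + (a * conj a) ^ 6 with hN
  have hN0 : N ≠ 0 := by
    have : N = ((Complex.normSq b ^ 6 + Complex.normSq a * Complex.normSq b ^ 5 +
        Complex.normSq a ^ 3 * Complex.normSq b ^ 3 + Complex.normSq a ^ 6 : ℝ) : ℂ) := by
      rw [hN, Complex.mul_conj, Complex.mul_conj]; push_cast; ring
    rw [this, Complex.ofReal_ne_zero]
    have ha := Complex.normSq_nonneg a
    have hb := Complex.normSq_nonneg b
    rcases hne with h' | h'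
    · have := Complex.normSq_pos.2 h'
      positivity
    · have := Complex.normSq_pos.2 h'
      positivity
  have e3 : η 3 = 0 := by
    have : η 3 * N = 0 := by
      rw [hN]
      linear_combination a ^ 6 * h3' + conj b ^ 6 * a ^ 5 * h2 -
        (conj b ^ 6 * a ^ 3 * b + conj a * conj b ^ 5 * a ^ 4) * h0 +
        (conj b ^ 6 * b ^ 3 + conj a * conj b ^ 5 * a * b ^ 2 +
          conj a ^ 3 * conj b ^ 3 * a ^ 3) * h1
    exact (mul_eq_zero.1 this).resolve_right hN0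
  have e0 : η 0 = 0 := by
    have : η 0 * N = 0 := by
      rw [hN]
      linear_combination -b ^ 6 * h3' + conj a ^ 6 * b ^ 3 * h1 -
        (conj a ^ 6 * a ^ 3 * b + conj a ^ 3 * conj b ^ 3 * b ^ 4) * h0 +
        (conj a ^ 6 * a ^ 5 + conj a ^ 3 * conj b ^ 3 * a ^ 2 * b ^ 3 +
          conj a * conj b ^ 5 * b ^ 5) * h2
    exact (mul_eq_zero.1 this).resolve_right hN0
  rw [e3] at h1
  rw [e0] at h2
  have e2 : η 2 = 0 := by
    rcases hne with h' | h'
    · have : a ^ 3 * η 2 = 0 := by linear_combination h1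
      simpa [h'] using this
    · have : b ^ 3 * η 2 = 0 := by linear_combination b * h0 - a ^ 2 * h2
      simpa [h'] using this
  rw [e2] at h0
  have e1 : η 1 = 0 := by
    rcases hne with h' | h'
    · have : a ^ 2 * η 1 = 0 := by linear_combination h0
      simpa [h'] using this
    · have : b * η 1 = 0 := by linear_combination h2
      simpa [h'] using this
  ext i; fin_cases i <;> simp [e0, e1, e2, e3, h4]

lemma sg_unit (α : ℂ × ℂ) (hα : α ≠ 0) : IsUnit (sg α) := by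
  rw [ContinuousLinearMap.isUnit_iff_bijective]
  have hi : Function.Injective (sl α) := (injective_iff_map_eq_zero _).2 (sf_inj α hα)
  exact ⟨hi, LinearMap.injective_iff_surjective.1 hi⟩

def si (α : ℂ × ℂ) : Y →L[ℝ] Y := Ring.inverse (sg α)

lemma si_sm : ContDiffOn ℝ ∞ si {α | α ≠ 0} := by
  intro α hα
  obtain ⟨u, hu⟩ := sg_unit α hα
  have h1 : ContDiffAt ℝ ∞ (Ring.inverse : (Y →L[ℝ] Y) → (Y →L[ℝ] Y)) (sg α) := by
    rw [← hu]; exact contDiffAt_ringInverse ℝ u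
  exact (h1.comp α sg_sm.contDiffAt).contDiffWithinAt

def jl : Y ≃ₗ[ℝ] (E 8 × ℝ) × ℝ where
  toFun η := ((!₂[(η 0).re, (η 0).im, (η 1).re, (η 1).im, (η 2).re, (η 2).im, (η 3).re, (η 3).im],
    (η 4).re), (η 4).im)
  invFun x := !₂[⟨x.1.1 0, x.1.1 1⟩, ⟨x.1.1 2, x.1.1 3⟩, ⟨x.1.1 4, x.1.1 5⟩, ⟨x.1.1 6, x.1.1 7⟩,
    ⟨x.1.2, x.2⟩]
  map_add' x y := by
    refine Prod.ext (Prod.ext ?_ ?_) ?_
    · ext i; fin_cases i <;> simp
    · simp
    · simp
  map_smul' t x := by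
    refine Prod.ext (Prod.ext ?_ ?_) ?_
    · ext i; fin_cases i <;> simp
    · simp
    · simp
  left_inv η := by
    ext i; fin_cases i <;> simp
  right_inv x := by
    refine Prod.ext (Prod.ext ?_ ?_) ?_
    · ext i; fin_cases i <;> simp
    · simp
    · simp

end FrK

open FrK in
theorem fr : FR := by
  refine ⟨sg, si, jl.toContinuousLinearEquiv, sg_sm, si_sm, ?_, ?_, ?_, ?_, ?_, ?_, ?_, ?_, ?_, ?_⟩
  · intro c a b η _
    ext i; fin_cases i <;> simp [sg_apply, sf, act] <;> ring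
  · intro α η; simp [sg_apply, sf]
  · intro α
    ext i; fin_cases i <;> simp [sg_apply, sf, ev]
  · intro α η hα
    have := Ring.inverse_mul_cancel _ (sg_unit α hα)
    exact congrArg (fun T : Y →L[ℝ] Y => T η) this
  · intro α η hα
    have := Ring.mul_inverse_cancel _ (sg_unit α hα)
    exact congrArg (fun T : Y →L[ℝ] Y => T η) this
  · have hK : IsCompact {α : ℂ × ℂ | 1 / 4 ≤ ‖α‖ ∧ ‖α‖ ≤ 1} := by
      refine (isCompact_closedBall (0 : ℂ × ℂ) 1).of_isClosed_subset ?_ ?_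
      · exact (isClosed_le continuous_const continuous_norm).inter
          (isClosed_le continuous_norm continuous_const)
      · intro α hα; simpa using hα.2
    have hs : {α : ℂ × ℂ | 1 / 4 ≤ ‖α‖ ∧ ‖α‖ ≤ 1} ⊆ {α | α ≠ 0} := by
      rintro α hα rfl
      have := hα.1
      norm_num at this
    obtain ⟨K1, h1⟩ := hK.exists_bound_of_continuousOn sg_sm.continuous.continuousOn
    obtain ⟨K2, h2⟩ := hK.exists_bound_of_continuousOn (si_sm.continuousOn.mono hs)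
    exact ⟨max K1 K2, fun α ha hb =>
      ⟨(h1 α ⟨ha, hb⟩).trans (le_max_left _ _), (h2 α ⟨ha, hb⟩).trans (le_max_right _ _)⟩⟩
  · intro η; rfl
  · intro η; rfl
  · intro η
    rw [EuclideanSpace.norm_sq_eq, EuclideanSpace.norm_sq_eq]
    simp [jl, u1, u2, Fin.sum_univ_succ, Complex.sq_norm, Complex.normSq_apply]
    ring
  · refine Prod.ext (Prod.ext ?_ ?_) ?_
    · ext i; fin_cases i <;> simp [jl, ev]
    · simp [jl, ev]
    · simp [jl, ev]

end

end Crest.Agent.N218.P
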