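import Crest.Agent.N218.P.Pre
import Crest.Agent.N218.P.Kit

/-!
# Row 218, block A4 (helper77): construction of the data `Pre`
-/

set_option autoImplicit false
open Set
open scoped ContDiff RealInnerProductSpace

namespace Crest.Agent.N218.P
open A Sh

noncomputable section

theorem exists_iso : Nonempty (Y ≃ₗᵢ[ℝ] Eu 9) := by
  have h : Module.finrank ℝ Y = 9 + 1 := by
    rw [← Module.finrank_mul_finrank ℝ ℂ Y]; simp
  exact ⟨(stdOrthonormalBasis ℝ Y).repr.trans
    (LinearIsometryEquiv.piLpCongrLeft 2 ℝ ℝ (finCongr h))⟩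

/-- the chart projection -/
def p0 : Eu 11 →L[ℝ] E 8 × E 3 :=
  LinearMap.toContinuousLinearMap
    { toFun := fun x => (!₂[x 1, x 2, x 3, x 4, x 5, x 6, x 7, x 8], !₂[x 9, x 10, x 11])
      map_add' := fun x y => by
        ext i <;> fin_cases i <;> simp
      map_smul' := fun c x => by
        ext i <;> fin_cases i <;> simp }

theorem p0_apply (x : Eu 11) :
    p0 x = (!₂[x 1, x 2, x 3, x 4, x 5, x 6, x 7, x 8], !₂[x 9, x 10, x 11]) := rfl

theorem p0_norm (x : Eu 11) : ‖(p0 x).1‖ ^ 2 + ‖(p0 x).2‖ ^ 2 =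
    ‖x‖ ^ 2 - ⟪(EuclideanSpace.single 0 1 : Eu 11), x⟫ ^ 2 := by
  simp only [p0_apply, EuclideanSpace.norm_sq_eq, Fin.sum_univ_succ, EuclideanSpace.inner_single_left]
  simp
  ring

theorem p0_surj : Function.Surjective p0 := fun z =>
  ⟨!₂[0, z.1 0, z.1 1, z.1 2, z.1 3, z.1 4, z.1 5, z.1 6, z.1 7, z.2 0, z.2 1, z.2 2], by
    rw [p0_apply]
    ext i <;> fin_cases i <;> simp⟩

theorem Pp.pl {w ε : ℝ} {p : ℝ → ℝ} (h : Pp (ε * w) 20 p) (e0 : 0 < ε) (e1 : ε ≤ 1 / 100) :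
    Pp w 30 (pl ε p) where
  sm := (h.sm.comp (contDiff_const.mul contDiff_id)).div_const ε
  id u hu := by
    rw [P.pl, h.id _ (by nlinarith)]; field_simp
  nn u hu := div_nonneg (h.nn _ (by positivity)) e0.le
  lt u hu := by
    rw [P.pl, div_lt_iff₀ e0, mul_comm u]; exact h.lt _ (by positivity)
  le u hu := by
    rw [P.pl, div_le_iff₀ e0]
    have := h.le (ε * u) (by nlinarith)
    linarith
  lip u u' := by
    rw [P.pl, P.pl, ← sub_div, abs_div, abs_of_pos e0, div_le_iff₀ e0]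
    have := h.lip (ε * u) (ε * u')
    rwa [← mul_sub, abs_mul, abs_of_pos e0, mul_comm ε |u - u'|] at this

theorem piH_smooth' {p : ℝ → ℝ} (h : ContDiff ℝ ∞ p) : ContDiff ℝ ∞ (piH p) :=
  contDiff_id.sub ((u1_sm.sub (h.comp u1_sm)).smul contDiff_const)

variable {σ σ' : ℂ × ℂ → (Y →L[ℝ] Y)} {j : Y ≃L[ℝ] (E 8 × ℝ) × ℝ}

theorem Fr.u1 (h : Fr σ σ' j) (α : ℂ × ℂ) (η : Y) : u1 (σ α η) = u1 η := by
  simp only [P.u1, h.vert]


theorem Fr.piH (h : Fr σ σ' j) (p : ℝ → ℝ) (α : ℂ × ℂ) (η : Y) :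
    piH p (σ α η) = σ α (piH p η) := by
  simp only [P.piH, h.u1, map_sub, map_smul, h.up]

theorem Fr.eqv' (h : Fr σ σ' j) {c a b : ℂ} (hc : ‖c‖ = 1) (hα : (a, b) ≠ 0) (η : Y) :
    σ' (c * a, c * b) (act c η) = σ' (a, b) η := by
  have c0 : c ≠ 0 := by rintro rfl; simp at hc
  have h2 : (c * a, c * b) ≠ 0 := by
    intro e
    simp only [Prod.mk_eq_zero, mul_eq_zero, c0, false_or] at e
    exact hα (by simp [e.1, e.2])
  conv_lhs => rw [← h.ri (a, b) η hα, ← h.eqv c a b _ hc]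
  exact h.li _ _ h2

theorem Fr.far (h : Fr σ σ' j) {K : ℝ} {α : ℂ × ℂ} (h1 : 1 / 4 ≤ ‖α‖) (hK : ‖σ' α‖ ≤ K)
    {η : Y} (hη : 30 * K + 1 ≤ ‖η‖) : 30 ≤ ‖σ α η‖ := by
  have a0 : α ≠ 0 := by rintro rfl; norm_num at h1
  have a := (σ' α).le_opNorm (σ α η)
  rw [h.li α η a0] at a
  have K0 : 0 ≤ K := (norm_nonneg _).trans hK
  by_contra n
  have := mul_le_mul hK (not_le.1 n).le (norm_nonneg _) K0
  linarith

theorem pre (hT : TOT) (hM : MZ) (hG : REG) (hR : RET) (hB : BODY) (hF : FR) (hD : DESC) :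
    PRE := fun Λ h1 => by
  classical
  obtain ⟨S, hS⟩ := TOT.of hT
  obtain ⟨M, hM⟩ := hM
  have hL := hG M hM
  obtain ⟨w0, w0p, C, C0, hR⟩ := hR _ hL
  obtain ⟨σ, σ', j, hF⟩ := hF
  obtain ⟨KF, hK⟩ := hF.bd
  have r0 := S.r0
  obtain ⟨s, -, ov, far, al, hD⟩ := hD (S.r / 4) (by positivity)
  obtain ⟨i⟩ := exists_iso
  have KF0 : 0 ≤ KF := (norm_nonneg _).trans (hK (1, 0) (by simp; norm_num) (by simp)).1
  set A := 30 * KF + 30 + KF * C + C with hA
  have A1 : 1 ≤ A := by have := mul_nonneg KF0 C0.le; linarith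
  have A2 : 30 * KF + 1 ≤ A := by have := mul_nonneg KF0 C0.le; linarith
  set w := min w0 (1 / 1000) with hw
  have wp : 0 < w := lt_min w0p (by norm_num)
  set ε := min (1 / 100) (min (S.r / (4 * (A * Λ))) (1 / (4 * (A * Λ)))) with hε
  have εp : 0 < ε := lt_min (by norm_num) (lt_min (by positivity) (by positivity))
  have ε1 : ε ≤ 1 / 100 := min_le_left _ _
  have ε2 : ε * A * Λ ≤ S.r / 4 := by
    have : ε ≤ S.r / (4 * (A * Λ)) := (min_le_right _ _).trans (min_le_left _ _)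
    rw [le_div_iff₀ (by positivity)] at this
    linarith
  have ε4 : ε * A * Λ ≤ 1 / 4 := by
    have : ε ≤ 1 / (4 * (A * Λ)) := (min_le_right _ _).trans (min_le_right _ _)
    rw [le_div_iff₀ (by positivity)] at this
    linarith
  have ε3 : ε * A ≤ 1 / 4 := by nlinarith [mul_pos εp (lt_of_lt_of_le one_pos A1)]
  have A3 : 30 ≤ A := by have := mul_nonneg KF0 C0.le; linarith
  have A4 : C ≤ A := by have := mul_nonneg KF0 C0.le; linarith
  have ev1 : ‖ev‖ = 1 := by
    simp [ev, EuclideanSpace.norm_eq, Fin.sum_univ_succ]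
  have w1 : w ≤ 1 / 1000 := min_le_right _ _
  obtain ⟨C', p, rY, hb⟩ := hB Y ev ev1 (ε * w) (by positivity) (by nlinarith)
  have hp := hb.pp.pl εp ε1
  obtain ⟨R, hR⟩ := hR w wp (min_le_left _ _) _ hp
  have nz : ∀ {α : ℂ × ℂ}, 1 / 4 ≤ ‖α‖ → α ≠ 0 := fun h e => by rw [e] at h; norm_num at h
  have sσ : ContDiff ℝ ∞ fun z : (ℂ × ℂ × ℂ) × Y => σ z.1.2 z.2 :=
    (hF.sm.comp (contDiff_snd.comp contDiff_fst)).clm_apply contDiff_snd
  -- the retraction
  obtain ⟨g, gs, g1, g2, g3⟩ := hD Y Y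
    (fun z => if z.1.2 = 0 then 0 else σ' z.1.2 (R (z.1, σ z.1.2 z.2)) - piH (pl ε p) z.2)
    (by
      refine ContDiffOn.congr (f := fun z : (ℂ × ℂ × ℂ) × Y =>
        σ' z.1.2 (R (z.1, σ z.1.2 z.2)) - piH (pl ε p) z.2) ?_ fun z hz => if_neg hz
      refine ContDiffOn.sub (ContDiffOn.clm_apply ?_ ?_)
        ((piH_smooth' hp.sm).comp contDiff_snd).contDiffOn
      · exact hF.sm'.comp (contDiff_snd.comp contDiff_fst).contDiffOn fun z hz => hz
      · exact hR.sm.comp (contDiff_fst.prodMk sσ).contDiffOn fun z hz => hz)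
    (by
      intro c ζ a b u hc
      have c0 : c ≠ 0 := by rintro rfl; simp at hc
      by_cases e : (a, b) = 0
      · have e' : (c * a, c * b) = 0 := by
          simp only [Prod.mk_eq_zero] at e ⊢; simp [e.1, e.2]
        simp only [e, e', if_true]
      · have e' : (c * a, c * b) ≠ 0 := by
          intro e'
          simp only [Prod.mk_eq_zero, mul_eq_zero, c0, false_or] at e'
          exact e (by simp [e'.1, e'.2])
        simp only [e, e', if_false]
        rw [hF.eqv c a b u hc, hR.eqv c ζ a b _ hc, hF.eqv' hc e])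
    (by
      intro l u hl
      by_cases e : l.2 = 0
      · simp only [e, if_true]
      · simp only [e, if_false]
        rw [hR.out _ _ (Or.inl hl), hF.piH, hF.li _ _ e, sub_self])
  -- the function
  obtain ⟨f, fs, f1, f2, f3⟩ := hD Y ℝ (fun z => F M (z.1.1, σ z.1.2 z.2) - u1 z.2)
    ((hL.sm.comp ((contDiff_fst.comp contDiff_fst).prodMk sσ)).sub
      (u1_sm.comp contDiff_snd)).contDiffOn
    (fun c ζ a b u hc => by
      simp only []
      rw [hF.eqv c a b u hc, hL.inv c ζ _ hc])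
    (fun l u hl => by
      simp only []
      rw [hL.out _ _ (Or.inl (by linarith)), hF.u1, sub_self])
  -- the chart
  obtain ⟨B, hB⟩ := (S.cpt (S.r / 2) (by linarith) (S.r / 2) (by linarith)).isBounded.exists_norm_le
  have B0 : 0 < |B| + 1 := by positivity
  refine ⟨⟨M, σ, σ', j, i, S, s, ε, w, C, C', A, 4 * (|B| + 1), p, rY, R, g,
    (4 * (|B| + 1)) • p0, EuclideanSpace.single 0 1, hM, hL, hF, hS, εp, ε1, A1, ε2, ε3, ε4, A3, A4, wp, w1, hb,
    hp, hR, ov, far, fun n hn a b o => (al n hn a b o).2, gs, ?_, ?_, ?_, by simp, by positivity,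
    ?_, ?_, ?_, f, EuclideanSpace.single 1 1, KF, C0.le, hK, by simp, ?_, by nlinarith, fs, ?_,
    fun n hn a b η o => f3 n hn a b η o⟩⟩
  · rintro n η (h | h)
    · exact g1 n η (by linarith)
    · refine g2 n η fun l a b => ?_
      simp only [nz a, if_false]
      rw [hR.out _ _ (Or.inr (hF.far a (hK _ a b).2 (A2.trans h))), hF.piH, hF.li _ _ (nz a),
        sub_self]
  · intro n hn η
    obtain ⟨a, b, o⟩ := ov n hn
    obtain ⟨-, x, y⟩ := al n hn a b o
    rw [g3 n hn a b η o]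
    simp only [nz x, if_false]
    rw [← hF.li _ (piH _ η) (nz x), ← hF.piH, ← map_sub]
    refine ((σ' _).le_opNorm _).trans ((mul_le_mul (hK _ x y).2 (hR.bd _ _) (norm_nonneg _)
      KF0).trans ?_)
    linarith
  · intro n hn a b η o
    rw [g3 n hn a b η o]
    simp only [nz (al n hn a b o).2.1, if_false]
  · intro x
    rw [← p0_norm]
    simp only [smul_apply, Prod.smul_fst, Prod.smul_snd, norm_smul,
      Real.norm_eq_abs, mul_pow, sq_abs]
    ring
  · intro z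
    obtain ⟨x, hx⟩ := p0_surj ((4 * (|B| + 1))⁻¹ • z)
    refine ⟨x, ?_⟩
    rw [smul_apply, hx, smul_smul, mul_inv_cancel₀ (by positivity), one_smul]
  · intro z hz a b
    have h := hB z ⟨hz, a, b⟩
    have h1 : ‖z.1.1‖ ≤ |B| + 1 := ((norm_fst_le z.1).trans ((norm_fst_le z).trans h)).trans
      (by linarith [le_abs_self B])
    have h2 : ‖z.1.2‖ ≤ |B| + 1 := ((norm_snd_le z.1).trans ((norm_fst_le z).trans h)).trans
      (by linarith [le_abs_self B])
    nlinarith [norm_nonneg z.1.1, norm_nonneg z.1.2]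
  · simp [EuclideanSpace.inner_single_left]
  · rintro n η (h | h)
    · exact f1 n η (by linarith)
    · refine f2 n η fun l a b => ?_
      simp only []
      rw [hL.out _ _ (Or.inr (Or.inl (by linarith [hF.far a (hK _ a b).2 (A2.trans h)]))), hF.u1,
        sub_self]

end

end Crest.Agent.N218.P
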